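import Vale.Agent.P026.H147.Baire

/-!
# A power saving at almost every frequency
-/

set_option linter.all false

open Finset Complex Filter MeasureTheory Topology
open scoped ArithmeticFunction.Moebius ENNReal

namespace Vale.Agent.P026.H147

lemma ex_mul_conj (α : ℝ) (n m : ℕ) :
    ex α n * (starRingEnd ℂ) (ex α m) = Complex.exp ((2 * Real.pi * Complex.I * ((n : ℂ) - m)) * α) := by
  unfold ex
  rw [← Complex.exp_conj, ← Complex.exp_add]
  congr 1
  simp only [map_mul, Complex.conj_ofReal, Complex.conj_I, map_natCast, map_ofNat]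
  ring

lemma integral_ex (k : ℤ) {n m : ℕ} (h : n ≠ m) :
    ∫ α in (k : ℝ)..(k + 1 : ℝ), Complex.exp ((2 * Real.pi * Complex.I * ((n : ℂ) - m)) * α) = 0 := by
  have h1 : (2 * Real.pi * Complex.I * ((n : ℂ) - m)) ≠ 0 := by
    refine mul_ne_zero Complex.two_pi_I_ne_zero (sub_ne_zero.2 ?_)
    exact_mod_cast h
  rw [integral_exp_mul_complex h1]
  have h2 : Complex.exp (2 * Real.pi * Complex.I * ((n : ℂ) - m) * ((k + 1 : ℝ) : ℂ)) =
      Complex.exp (2 * Real.pi * Complex.I * ((n : ℂ) - m) * ((k : ℝ) : ℂ)) := by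
    have h3 : 2 * Real.pi * Complex.I * ((n : ℂ) - m) * ((k + 1 : ℝ) : ℂ) =
        2 * Real.pi * Complex.I * ((n : ℂ) - m) * ((k : ℝ) : ℂ) +
          ((n - m : ℤ) : ℂ) * (2 * Real.pi * Complex.I) := by
      push_cast; ring
    rw [h3, Complex.exp_add, Complex.exp_int_mul_two_pi_mul_I, mul_one]
  rw [h2, sub_self, zero_div]

lemma integral_sq (k : ℤ) (N : ℕ) :
    ∫ α in (k : ℝ)..(k + 1 : ℝ), ‖mobSum α N‖ ^ 2 ≤ N := by
  have h1 : ∀ α : ℝ, ((‖mobSum α N‖ ^ 2 : ℝ) : ℂ) = ∑ n ∈ Icc 1 N, ∑ m ∈ Icc 1 N,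
      ((μ n : ℂ) * (μ m : ℂ)) * Complex.exp ((2 * Real.pi * Complex.I * ((n : ℂ) - m)) * α) := by
    intro α
    have h2 : ((‖mobSum α N‖ ^ 2 : ℝ) : ℂ) = mobSum α N * (starRingEnd ℂ) (mobSum α N) := by
      rw [Complex.mul_conj, Complex.normSq_eq_norm_sq]
    rw [h2, mobSum_eq, map_sum, Finset.sum_mul_sum]
    refine Finset.sum_congr rfl fun n _ => Finset.sum_congr rfl fun m _ => ?_
    rw [← ex_mul_conj, map_mul]
    simp only [map_intCast]
    ring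
  have h2 : ((∫ α in (k : ℝ)..(k + 1 : ℝ), ‖mobSum α N‖ ^ 2 : ℝ) : ℂ) =
      ∑ n ∈ Icc 1 N, ((μ n : ℂ) * (μ n : ℂ)) := by
    rw [← intervalIntegral.integral_ofReal]
    simp_rw [h1]
    rw [intervalIntegral.integral_finset_sum]
    · refine Finset.sum_congr rfl fun n hn => ?_
      rw [intervalIntegral.integral_finset_sum]
      · rw [Finset.sum_eq_single n]
        · rw [intervalIntegral.integral_const_mul]
          have : ∀ α : ℝ, Complex.exp ((2 * Real.pi * Complex.I * ((n : ℂ) - n)) * α) = 1 := by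
            intro α; simp
          simp_rw [this]
          simp
        · intro m _ hmn
          rw [intervalIntegral.integral_const_mul, integral_ex k (Ne.symm hmn), mul_zero]
        · intro h; exact absurd hn h
      · intro m _
        apply Continuous.intervalIntegrable
        fun_prop
    · intro n _
      apply Continuous.intervalIntegrable
      fun_prop
  have h3 : (∫ α in (k : ℝ)..(k + 1 : ℝ), ‖mobSum α N‖ ^ 2) =
      ∑ n ∈ Icc 1 N, ((μ n : ℝ) * (μ n : ℝ)) := by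
    apply Complex.ofReal_injective
    rw [h2]
    push_cast
    rfl
  rw [h3]
  calc ∑ n ∈ Icc 1 N, ((μ n : ℝ) * (μ n : ℝ)) ≤ ∑ n ∈ Icc 1 N, (1 : ℝ) := by
        refine Finset.sum_le_sum fun n _ => ?_
        have h4 : |((μ n : ℤ) : ℝ)| ≤ 1 := by
          exact_mod_cast (ArithmeticFunction.abs_moebius_le_one (n := n))
        have h5 := abs_le.1 h4
        nlinarith [abs_nonneg ((μ n : ℤ) : ℝ), sq_abs ((μ n : ℤ) : ℝ)]
    _ = N := by simp

/-- Almost everywhere on a unit interval. -/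
lemma ae_saves_unit (k : ℤ) :
    ∀ᵐ α ∂(volume.restrict (Set.Ioc (k : ℝ) (k + 1))), Saves (4 / 5) α := by
  set f : ℕ → ℝ → ℝ≥0∞ := fun j α =>
    ENNReal.ofReal (‖mobSum α (j ^ 2)‖ ^ 2 * ((j : ℝ) ^ (-(16 / 5) : ℝ))) with hf
  have hfm : ∀ j, Measurable (f j) := by
    intro j
    refine ENNReal.measurable_ofReal.comp ?_
    exact (((continuous_mobSum (j ^ 2)).norm.pow 2).mul continuous_const).measurable
  have hfi : ∀ j, ∫⁻ α in Set.Ioc (k : ℝ) (k + 1), f j α ≤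
      ENNReal.ofReal ((j : ℝ) ^ (-(6 / 5) : ℝ)) := by
    intro j
    have h1 : ∫⁻ α in Set.Ioc (k : ℝ) (k + 1), f j α =
        ENNReal.ofReal (∫ α in Set.Ioc (k : ℝ) (k + 1),
          ‖mobSum α (j ^ 2)‖ ^ 2 * ((j : ℝ) ^ (-(16 / 5) : ℝ))) := by
      rw [ofReal_integral_eq_lintegral_ofReal]
      · have : Continuous fun α => ‖mobSum α (j ^ 2)‖ ^ 2 * ((j : ℝ) ^ (-(16 / 5) : ℝ)) :=
          ((continuous_mobSum (j ^ 2)).norm.pow 2).mul continuous_const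
        exact (this.integrableOn_Icc (a := (k : ℝ)) (b := k + 1)).mono_set Set.Ioc_subset_Icc_self
      · exact Eventually.of_forall fun α => by positivity
    rw [h1]
    apply ENNReal.ofReal_le_ofReal
    rw [integral_mul_const, ← intervalIntegral.integral_of_le (by linarith)]
    have h2 := integral_sq k (j ^ 2)
    rcases Nat.eq_zero_or_pos j with rfl | hj
    · have : ((0 : ℕ) : ℝ) ^ (-(16 / 5) : ℝ) = 0 := by
        rw [Nat.cast_zero, Real.zero_rpow (by norm_num)]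
      rw [this, mul_zero]
      positivity
    · have hj0 : (0 : ℝ) < j := by exact_mod_cast hj
      calc _ ≤ ((j ^ 2 : ℕ) : ℝ) * ((j : ℝ) ^ (-(16 / 5) : ℝ)) := by gcongr
        _ = (j : ℝ) ^ (-(6 / 5) : ℝ) := by
            push_cast
            rw [← Real.rpow_natCast, ← Real.rpow_add hj0]
            norm_num
  have hsum : ∫⁻ α in Set.Ioc (k : ℝ) (k + 1), ∑' j, f j α ≠ ∞ := by
    rw [lintegral_tsum fun j => (hfm j).aemeasurable]
    have h1 : ∑' j : ℕ, ENNReal.ofReal ((j : ℝ) ^ (-(6 / 5) : ℝ)) ≠ ∞ := by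
      have h2 : Summable fun j : ℕ => (j : ℝ) ^ (-(6 / 5) : ℝ) :=
        Real.summable_nat_rpow.2 (by norm_num)
      exact h2.tsum_ofReal_ne_top
    exact ne_top_of_le_ne_top h1 (ENNReal.tsum_le_tsum hfi)
  have hae := ae_lt_top (Measurable.ennreal_tsum hfm) hsum
  filter_upwards [hae] with α hα
  set M : ℝ := (∑' j, f j α).toReal with hM
  have hM0 : 0 ≤ M := ENNReal.toReal_nonneg
  have hb : ∀ j : ℕ, 1 ≤ j → ‖mobSum α (j ^ 2)‖ ≤ (1 + M) * (j : ℝ) ^ (8 / 5 : ℝ) := by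
    intro j hj
    have hj0 : (0 : ℝ) < j := by exact_mod_cast hj
    have h1 : f j α ≤ ∑' j, f j α := ENNReal.le_tsum j
    have h2 : ‖mobSum α (j ^ 2)‖ ^ 2 * ((j : ℝ) ^ (-(16 / 5) : ℝ)) ≤ M := by
      have h3 := ENNReal.toReal_mono hα.ne h1
      rw [hf] at h3
      simp only at h3
      rwa [ENNReal.toReal_ofReal (by positivity)] at h3
    have h3 : ‖mobSum α (j ^ 2)‖ ^ 2 ≤ M * (j : ℝ) ^ (16 / 5 : ℝ) := by
      have h4 : (j : ℝ) ^ (-(16 / 5) : ℝ) * (j : ℝ) ^ (16 / 5 : ℝ) = 1 := by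
        rw [← Real.rpow_add hj0]; norm_num
      calc ‖mobSum α (j ^ 2)‖ ^ 2 = (‖mobSum α (j ^ 2)‖ ^ 2 * ((j : ℝ) ^ (-(16 / 5) : ℝ))) *
            (j : ℝ) ^ (16 / 5 : ℝ) := by rw [mul_assoc, h4, mul_one]
        _ ≤ _ := by gcongr
    have h5 : (j : ℝ) ^ (16 / 5 : ℝ) = ((j : ℝ) ^ (8 / 5 : ℝ)) ^ 2 := by
      rw [← Real.rpow_natCast, ← Real.rpow_mul hj0.le]; norm_num
    rw [h5] at h3
    apply le_of_sq_le_sq _ (by positivity)
    calc ‖mobSum α (j ^ 2)‖ ^ 2 ≤ M * ((j : ℝ) ^ (8 / 5 : ℝ)) ^ 2 := h3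
      _ ≤ (1 + M) ^ 2 * ((j : ℝ) ^ (8 / 5 : ℝ)) ^ 2 := by
          gcongr
          nlinarith
      _ = _ := by ring
  refine ⟨1 + M + 3, fun N hN => ?_⟩
  set j := Nat.sqrt N with hj
  have hj1 : 1 ≤ j := by
    rw [hj, Nat.le_sqrt]; simpa using hN
  have hj0 : (0 : ℝ) < j := by exact_mod_cast hj1
  have hjN : j ^ 2 ≤ N := by rw [sq]; exact Nat.sqrt_le N
  have hjN2 : N < (j + 1) ^ 2 := by rw [sq]; exact Nat.lt_succ_sqrt N
  have hNr : (1 : ℝ) ≤ N := by exact_mod_cast hN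
  have h1 : ‖mobSum α N - mobSum α (j ^ 2)‖ ≤ 3 * j := by
    have e1 : mobSum α N - mobSum α (j ^ 2) = ∑ n ∈ Ioc (j ^ 2) N, (μ n : ℂ) * ex α n := by
      rw [mobSum_eq, mobSum_eq]
      have e2 : Icc 1 N = Icc 1 (j ^ 2) ∪ Ioc (j ^ 2) N := by
        ext n
        simp only [Finset.mem_union, Finset.mem_Icc, Finset.mem_Ioc]
        omega
      rw [e2, Finset.sum_union]
      · ring
      · rw [Finset.disjoint_left]
        intro n hn hn'
        simp only [Finset.mem_Icc, Finset.mem_Ioc] at hn hn'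
        omega
    rw [e1]
    calc _ ≤ ∑ n ∈ Ioc (j ^ 2) N, (1 : ℝ) := by
          refine (norm_sum_le _ _).trans (Finset.sum_le_sum fun n _ => ?_)
          rw [norm_mul, norm_ex, mul_one]
          exact norm_moebius_le n
      _ = ((N - j ^ 2 : ℕ) : ℝ) := by simp
      _ ≤ ((3 * j : ℕ) : ℝ) := by
          have : N - j ^ 2 ≤ 3 * j := by
            have : (j + 1) ^ 2 = j ^ 2 + 2 * j + 1 := by ring
            omega
          exact_mod_cast this
      _ = 3 * j := by push_cast; ring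
  have h2 : (j : ℝ) ≤ (N : ℝ) ^ (1 / 2 : ℝ) := by
    rw [← Real.sqrt_eq_rpow]
    apply Real.le_sqrt_of_sq_le
    exact_mod_cast hjN
  have h3 : (j : ℝ) ^ (8 / 5 : ℝ) ≤ (N : ℝ) ^ (4 / 5 : ℝ) := by
    calc (j : ℝ) ^ (8 / 5 : ℝ) ≤ ((N : ℝ) ^ (1 / 2 : ℝ)) ^ (8 / 5 : ℝ) := by gcongr
      _ = (N : ℝ) ^ (4 / 5 : ℝ) := by
          rw [← Real.rpow_mul (by linarith)]; norm_num
  have h4 : (j : ℝ) ≤ (N : ℝ) ^ (4 / 5 : ℝ) :=
    h2.trans (Real.rpow_le_rpow_of_exponent_le hNr (by norm_num))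
  calc ‖mobSum α N‖ = ‖mobSum α (j ^ 2) + (mobSum α N - mobSum α (j ^ 2))‖ := by congr 1; ring
    _ ≤ ‖mobSum α (j ^ 2)‖ + ‖mobSum α N - mobSum α (j ^ 2)‖ := norm_add_le _ _
    _ ≤ (1 + M) * (j : ℝ) ^ (8 / 5 : ℝ) + 3 * j := add_le_add (hb j hj1) h1
    _ ≤ (1 + M) * (N : ℝ) ^ (4 / 5 : ℝ) + 3 * (N : ℝ) ^ (4 / 5 : ℝ) := by gcongr
    _ = _ := by ring

/-- At almost every frequency the Möbius exponential sum is `O(N ^ (4/5))`. -/
theorem ae_saves : ∀ᵐ α : ℝ, Saves (4 / 5) α := by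
  have h1 : (⋃ k : ℤ, Set.Ioc (k : ℝ) (k + 1)) = Set.univ := by
    exact_mod_cast iUnion_Ioc_intCast ℝ
  have h2 : ∀ᵐ α ∂(volume.restrict (⋃ k : ℤ, Set.Ioc (k : ℝ) (k + 1))), Saves (4 / 5) α :=
    (ae_restrict_iUnion_iff _ _).2 ae_saves_unit
  rwa [h1, Measure.restrict_univ] at h2

theorem ae_mem_savingSet : ∀ᵐ α : ℝ, α ∈ SavingSet := by
  filter_upwards [ae_saves] with α hα
  exact ⟨4 / 5, by norm_num, hα⟩

end Vale.Agent.P026.H147
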