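import Vale.Agent.P026.H147.Major

/-!
# From a zero-free strip back to the exponential sums
-/

set_option linter.all false

open Finset Complex DirichletCharacter Filter ArithmeticFunction
open scoped ArithmeticFunction.Moebius

namespace Vale.Agent.P026.H147

lemma inv_cont {q : ℕ} [NeZero q] (χ : DirichletCharacter ℂ q) {θ : ℝ}
    (hz : ∀ s : ℂ, θ < s.re → s.re < 1 → LFunction χ s ≠ 0) :
    ∃ G : ℂ → ℂ, DifferentiableOn ℂ G {s | θ < s.re} ∧
      ∀ s : ℂ, 1 < s.re → G s = DS (fun n => χ (n : ZMod q)) s := by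
  have hne : ∀ s : ℂ, θ < s.re → s ≠ 1 ∨ χ ≠ 1 → LFunction χ s ≠ 0 := by
    intro s hs h
    by_cases h1 : s.re < 1
    · exact hz s hs h1
    · push Not at h1
      exact LFunction_ne_zero_of_one_le_re χ (h.symm) h1
  by_cases hχ : χ = 1
  · refine ⟨fun s => (s - 1) / LFunctionTrivChar₁ q s, ?_, ?_⟩
    · intro s hs
      refine (DifferentiableAt.fun_div (by fun_prop)
        (differentiable_LFunctionTrivChar₁ q s) ?_).differentiableWithinAt
      by_cases hs1 : s = 1
      · subst hs1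
        exact LFunctionTrivChar₁_apply_one_ne_zero q
      · rw [LFunctionTrivChar₁, Function.update_of_ne hs1]
        refine mul_ne_zero (sub_ne_zero.2 hs1) ?_
        have := hne s hs (Or.inl hs1)
        rw [hχ] at this
        exact this
    · intro s hs
      have hs1 : s ≠ 1 := by
        rintro rfl
        simp at hs
      have h1 := DS_char χ hs
      have hs2 : s - 1 ≠ 0 := sub_ne_zero.2 hs1
      simp only
      rw [LFunctionTrivChar₁, Function.update_of_ne hs1, div_mul_eq_div_div, div_self hs2, one_div]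
      have h2 : LFunctionTrivChar q s = LFunction χ s := by rw [hχ]
      rw [h2]
      exact inv_eq_of_mul_eq_one_right h1
  · refine ⟨fun s => (LFunction χ s)⁻¹, ?_, fun s hs => ?_⟩
    · intro s hs
      exact ((differentiable_LFunction hχ s).inv (hne s hs (Or.inr hχ))).differentiableWithinAt
    · exact inv_eq_of_mul_eq_one_right (DS_char χ hs)

lemma cont_zmod {q : ℕ} [NeZero q] (h : ZMod q → ℂ) {θ : ℝ} (hz : ZeroFree θ) :
    ∃ G : ℂ → ℂ, DifferentiableOn ℂ G {s | θ < s.re} ∧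
      ∀ s : ℂ, 1 < s.re → G s = DS (fun n => h (n : ZMod q)) s := by
  classical
  choose G hG1 hG2 using fun χ : DirichletCharacter ℂ q => inv_cont χ (hz q χ)
  refine ⟨fun s => ∑ d ∈ q.divisors, (μ d : ℂ) * (d : ℂ) ^ (-s) *
    ∑ χ : DirichletCharacter ℂ q, cc (fun x => h ((d : ZMod q) * x)) χ * G χ s, ?_, ?_⟩
  · refine DifferentiableOn.fun_sum fun d hd => ?_
    have hd0 : (d : ℂ) ≠ 0 := by
      have := (Nat.pos_of_mem_divisors hd).ne'
      exact_mod_cast this
    refine (((differentiable_id.neg.const_cpow (Or.inl hd0)).const_mul _).differentiableOn).mul ?_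
    exact DifferentiableOn.fun_sum fun χ _ => (hG1 χ).const_mul _
  · intro s hs
    simp only
    rw [DS_gcd (NeZero.ne q) (bdd_zmod h) hs]
    refine Finset.sum_congr rfl fun d hd => ?_
    congr 1
    have h2 : (fun m : ℕ => if m.Coprime q then h ((d * m : ℕ) : ZMod q) else 0) =
        fun m : ℕ => ∑ χ : DirichletCharacter ℂ q,
          cc (fun x => h ((d : ZMod q) * x)) χ * χ (m : ZMod q) := by
      ext m
      have h3 := char_expand (fun x => h ((d : ZMod q) * x)) m
      push_cast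
      exact h3
    rw [h2, DS_sum (fun χ _ => (bdd_char χ).smul _) hs]
    refine Finset.sum_congr rfl fun χ _ => ?_
    rw [DS_smul, hG2 χ s hs]

/-- A zero-free strip continues all the series at rational frequencies. -/
theorem continues_of_zeroFree {θ : ℝ} (hz : ZeroFree θ) (α : ℚ) : Continues θ α := by
  haveI : NeZero α.den := ⟨α.den_nz⟩
  obtain ⟨G, hG1, hG2⟩ := cont_zmod (q := α.den)
    (fun x => (ZMod.stdAddChar ((α.num : ZMod α.den) * x) : ℂ)) hz
  refine ⟨G, hG1, fun s hs => ?_⟩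
  rw [hG2 s hs]
  unfold DS
  congr 1
  ext n
  congr 1
  have h1 := ex_frac (q := α.den) α.num n
  refine h1.symm.trans ?_
  have h2 : ((α.num : ℝ) / α.den) = (α : ℝ) := by exact_mod_cast Rat.num_div_den α
  rw [h2]
  rfl

/-- The set `near P x` accumulates at `x` only. -/
theorem near_finite (P : Set ℕ) (x ε : ℝ) (hε : 0 < ε) :
    {α : ℚ | α ∈ near P x ∧ x + ε ≤ (α : ℝ)}.Finite := by
  set M : ℕ := ⌈2 / ε⌉₊ with hM
  set B : ℕ := M ^ 2 with hB
  set T : Set (ℤ × ℕ) := (Set.Icc (-(⌈(|x| + 2) * B⌉ : ℤ)) ⌈(|x| + 2) * B⌉) ×ˢ (Set.Icc 0 B) with hT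
  have hTf : T.Finite := (Set.finite_Icc _ _).prod (Set.finite_Icc _ _)
  refine Set.Finite.subset (hTf.image fun p : ℤ × ℕ => (p.1 : ℚ) / p.2) ?_
  rintro α ⟨⟨r, hr, h1, h2, h3, h4⟩, h5⟩
  have hr1 : r ≠ 0 := by
    rintro rfl
    simp at h2
  have hr0 : (0 : ℝ) < r := by exact_mod_cast Nat.pos_of_ne_zero hr1
  have hrM : r ≤ M := by
    have h6 : ε ≤ 2 / r := by linarith
    rw [le_div_iff₀ hr0] at h6
    have h7 : (r : ℝ) ≤ 2 / ε := by
      rw [le_div_iff₀ hε]
      linarith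
    exact_mod_cast h7.trans (Nat.le_ceil _)
  have hden : α.den ≤ B := by
    calc α.den ≤ r ^ 2 := h2.le
      _ ≤ M ^ 2 := Nat.pow_le_pow_left hrM 2
  have hr1' : (1 : ℝ) ≤ r := by exact_mod_cast Nat.one_le_iff_ne_zero.2 hr1
  have hα : |(α : ℝ)| ≤ |x| + 2 := by
    have h8 : 2 / (r : ℝ) ≤ 2 := by
      rw [div_le_iff₀ hr0]; linarith
    rw [abs_le]
    have := neg_abs_le x
    have := le_abs_self x
    constructor <;> linarith
  have hdr : (α.den : ℝ) ≤ B := by exact_mod_cast hden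
  have hnum : |(α.num : ℝ)| ≤ (|x| + 2) * B := by
    have h9 : (α.num : ℝ) = (α : ℝ) * α.den := by exact_mod_cast (Rat.mul_den_eq_num α).symm
    rw [h9, abs_mul]
    refine mul_le_mul hα ?_ (abs_nonneg _) (by positivity)
    rw [abs_of_nonneg (by positivity)]
    exact hdr
  refine ⟨(α.num, α.den), ?_, ?_⟩
  · rw [hT, Set.mem_prod]
    refine ⟨?_, Nat.zero_le _, hden⟩
    rw [abs_le] at hnum
    have h10 : ((|x| + 2) * B : ℝ) ≤ ((⌈(|x| + 2) * B⌉ : ℤ) : ℝ) := Int.le_ceil _
    constructor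
    · have : (((-⌈(|x| + 2) * B⌉ : ℤ)) : ℝ) ≤ (α.num : ℝ) := by push_cast; linarith [hnum.1]
      exact_mod_cast this
    · have : (α.num : ℝ) ≤ ((⌈(|x| + 2) * B⌉ : ℤ) : ℝ) := by linarith [hnum.2]
      exact_mod_cast this
  · exact Rat.num_div_den α

end Vale.Agent.P026.H147
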