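import Mathlib

/-!
# P026: the uniform quasi-Riemann hypothesis and the Möbius exponential sum (definitions)
-/

open Finset
open scoped ArithmeticFunction.Moebius

namespace Vale.Agent.P026.H147

/-- No Dirichlet `L`-function (of any modulus) has a zero with `σ < Re s < 1`. -/
def ZeroFree (σ : ℝ) : Prop :=
  ∀ (q : ℕ) [NeZero q] (χ : DirichletCharacter ℂ q) (s : ℂ),
    σ < s.re → s.re < 1 → DirichletCharacter.LFunction χ s ≠ 0

/-- The uniform quasi-Riemann hypothesis: for some `σ < 1` no Dirichlet `L`-function has a zero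
with `σ < Re s < 1`. -/
def UniformQuasiRH : Prop := ∃ σ : ℝ, σ < 1 ∧ ZeroFree σ

/-- The Möbius exponential sum `∑_{n ≤ N} μ(n) exp(2 π i n α)` at the frequency `α`. -/
noncomputable def mobSum (α : ℝ) (N : ℕ) : ℂ :=
  ∑ n ∈ Icc 1 N, (μ n : ℂ) * Complex.exp (2 * Real.pi * Complex.I * n * α)

/-- The Möbius exponential sum at the frequency `α` is `O(N ^ θ)`; the constant may depend
on `α`. -/
def Saves (θ α : ℝ) : Prop := ∃ C : ℝ, ∀ N : ℕ, 1 ≤ N → ‖mobSum α N‖ ≤ C * (N : ℝ) ^ θ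

/-- The frequencies at which the Möbius exponential sum has some power saving; both the saving
and the constant may depend on the frequency. -/
def SavingSet : Set ℝ := {α | ∃ θ : ℝ, θ < 1 ∧ Saves θ α}

/-- The Dirichlet series `∑ μ(n) exp(2 π i n α) n ^ (-s)`, which converges absolutely for
`Re s > 1`, has an analytic continuation to the half plane `Re s > θ`. -/
def Continues (θ α : ℝ) : Prop :=
  ∃ F : ℂ → ℂ, DifferentiableOn ℂ F {s | θ < s.re} ∧ ∀ s : ℂ, 1 < s.re →
    F s = LSeries (fun n => (μ n : ℂ) * Complex.exp (2 * Real.pi * Complex.I * n * α)) s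

/-- A set of primes which, for every `C`, has more than `C R ^ (3 / 4)` elements up to `R`, for
arbitrarily large `R`. -/
def Thick (P : Set ℕ) : Prop :=
  (∀ r ∈ P, r.Prime) ∧ ∀ (C : ℝ) (R₀ : ℕ), ∃ R : ℕ, R₀ ≤ R ∧
    C * (R : ℝ) ^ (3 / 4 : ℝ) < ({r : ℕ | r ∈ P ∧ r ≤ R}.ncard : ℝ)

/-- The rational numbers `α` with `x < α ≤ x + 2 / r` whose denominator is a multiple of `r` and
less than `r ^ 2`, for some `r` in `P`. -/
def near (P : Set ℕ) (x : ℝ) : Set ℚ :=
  {α | ∃ r ∈ P, r ∣ α.den ∧ α.den < r ^ 2 ∧ x < (α : ℝ) ∧ (α : ℝ) ≤ x + 2 / r}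

end Vale.Agent.P026.H147
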