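import Vale.Agent.P026.H147.Cont
import Vale.Agent.P026.H147.Defs

/-!
# From a power saving at a non-meagre set of frequencies to a zero-free strip
-/

set_option linter.all false

open Finset Complex Filter MeasureTheory Topology
open scoped ArithmeticFunction.Moebius

namespace Vale.Agent.P026.H147

lemma mobSum_eq (α : ℝ) (N : ℕ) : mobSum α N = ∑ n ∈ Icc 1 N, (μ n : ℂ) * ex α n := rfl

lemma continuous_mobSum (N : ℕ) : Continuous (fun α => mobSum α N) := by
  unfold mobSum
  refine continuous_finsetSum _ fun n _ => continuous_const.mul ?_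
  refine Complex.continuous_exp.comp ?_
  exact continuous_const.mul Complex.continuous_ofReal

lemma Saves.mono {θ θ' α : ℝ} (h : Saves θ α) (hθ : θ ≤ θ') : Saves θ' α := by
  obtain ⟨C, hC⟩ := h
  have hC0 : 0 ≤ C := by
    have := hC 1 le_rfl
    simp at this
    exact (norm_nonneg _).trans this
  refine ⟨C, fun N hN => (hC N hN).trans ?_⟩
  have h1 : (1 : ℝ) ≤ N := by exact_mod_cast hN
  gcongr

/-- A power saving gives a continuation of the Dirichlet series. -/
lemma Saves.continuation {θ α : ℝ} (h : Saves θ α) (hθ : 0 ≤ θ) (hθ1 : θ ≤ 1) :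
    ∃ F : ℂ → ℂ, DifferentiableOn ℂ F {s | θ < s.re} ∧ ∀ s, 1 < s.re → F s = DS (ex α) s := by
  obtain ⟨C, hC⟩ := h
  exact Vale.Agent.P026.H147.continuation (bdd_ex α).mulμ hθ hθ1 hC

/-- **Local to global**: a power saving at the rational frequencies of some interval implies a
zero-free strip for all Dirichlet `L`-functions. -/
theorem zeroFree_of_interval {lo hi θ : ℝ} (hlh : lo < hi) (hθ1 : θ ≤ 1)
    (H : ∀ α : ℚ, lo < α → (α : ℝ) < hi → Saves θ α) : ZeroFree (max θ (19 / 20)) := by
  intro q _ χ s hs1 hs2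
  refine local_global hlh (le_max_right θ (19 / 20)) (fun α h1 h2 => ?_) q χ s hs1 hs2
  exact ((H α h1 h2).mono (le_max_left _ _)).continuation
    (le_trans (by norm_num) (le_max_right θ (19 / 20))) (max_le hθ1 (by norm_num))

/-- **Baire dichotomy**: if the set of frequencies with a power saving is not meagre, then the
uniform quasi-Riemann hypothesis holds. -/
theorem uniform_of_nonmeagre (h : ¬ IsMeagre SavingSet) : UniformQuasiRH := by
  set E : ℕ → Set ℝ := fun m => {α | ∀ N : ℕ, 1 ≤ N →
    ‖mobSum α N‖ ≤ m * (N : ℝ) ^ (1 - 1 / ((m : ℝ) + 1))} with hE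
  have hclosed : ∀ m, IsClosed (E m) := by
    intro m
    simp only [hE, Set.setOf_forall]
    refine isClosed_iInter fun N => isClosed_iInter fun _ => ?_
    exact isClosed_le (continuous_mobSum N).norm continuous_const
  have hcover : SavingSet ⊆ ⋃ m, E m := by
    rintro α ⟨θ, hθ, C, hC⟩
    have hC0 : 0 ≤ C := by
      have := hC 1 le_rfl
      simp at this
      exact (norm_nonneg _).trans this
    obtain ⟨m, hm⟩ := exists_nat_ge (max C (1 / (1 - θ)))
    rw [Set.mem_iUnion]
    refine ⟨m, fun N hN => (hC N hN).trans ?_⟩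
    have h1 : (1 : ℝ) ≤ N := by exact_mod_cast hN
    have h2 : C ≤ m := (le_max_left _ _).trans hm
    have h3 : 1 / (1 - θ) ≤ m := (le_max_right _ _).trans hm
    have h4 : θ ≤ 1 - 1 / ((m : ℝ) + 1) := by
      have h5 : 0 < 1 - θ := by linarith
      rw [div_le_iff₀ h5] at h3
      have h6 : 1 / ((m : ℝ) + 1) ≤ 1 - θ := by
        rw [div_le_iff₀ (by positivity)]
        nlinarith
      linarith
    gcongr
  have hex : ∃ m, ¬ IsNowhereDense (E m) := by
    by_contra hcon
    push Not at hcon
    exact h ((isMeagre_iUnion fun m => (hcon m).isMeagre).mono hcover)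
  obtain ⟨m, hm⟩ := hex
  rw [IsClosed.isNowhereDense_iff (hclosed m), ← Ne, ← Set.nonempty_iff_ne_empty] at hm
  obtain ⟨x, hx⟩ := hm
  rw [mem_interior] at hx
  obtain ⟨U, hU1, hU2, hU3⟩ := hx
  obtain ⟨ε, hε, hball⟩ := Metric.isOpen_iff.1 hU2 x hU3
  set θ : ℝ := 1 - 1 / ((m : ℝ) + 1) with hθ
  have hθ1 : θ < 1 := by
    have : 0 < 1 / ((m : ℝ) + 1) := by positivity
    linarith
  have hz : ZeroFree (max θ (19 / 20)) := by
    refine zeroFree_of_interval (lo := x - ε) (hi := x + ε) (by linarith) hθ1.le fun α h1 h2 => ?_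
    have h3 : (α : ℝ) ∈ E m := by
      apply hU1
      apply hball
      rw [Metric.mem_ball, Real.dist_eq, abs_lt]
      constructor <;> linarith
    exact ⟨m, h3⟩
  exact ⟨max θ (19 / 20), max_lt hθ1 (by norm_num), hz⟩

end Vale.Agent.P026.H147
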