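import Mathlib

/-!
# Character sums and approximation of `L(s, χ)` by partial sums
-/

set_option linter.all false

open Finset Filter MeasureTheory Topology Complex Asymptotics

namespace Vale.Agent.P026.H147

variable {q : ℕ}

lemma sum_range_zmod [NeZero q] (f : ZMod q → ℂ) :
    ∑ k ∈ range q, f (k : ZMod q) = ∑ a, f a :=
  Finset.sum_nbij' (fun k => (k : ZMod q)) (fun a => a.val) (by simp)
    (by simp [ZMod.val_lt])
    (by intro k hk; simp [ZMod.val_natCast, Nat.mod_eq_of_lt (mem_range.mp hk)]) (by simp)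
    (by simp)

lemma sum_period [NeZero q] {χ : DirichletCharacter ℂ q} (hχ : χ ≠ 1) (m : ℕ) :
    ∑ k ∈ range q, χ ((m + k : ℕ) : ZMod q) = 0 := by
  have h := sum_range_zmod (q := q) (fun a => χ ((m : ZMod q) + a))
  simp only [← Nat.cast_add] at h
  rw [h, show (∑ a, χ ((m : ZMod q) + a)) = ∑ a, χ a from
    Equiv.sum_comp (Equiv.addLeft (m : ZMod q)) (fun a => χ a)]
  exact MulChar.sum_eq_zero_of_ne_one hχ

lemma sum_blocks [NeZero q] {χ : DirichletCharacter ℂ q} (hχ : χ ≠ 1) (m j : ℕ) :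
    ∑ k ∈ range (q * j), χ ((m + k : ℕ) : ZMod q) = 0 := by
  induction j with
  | zero => simp
  | succ j ih =>
    rw [Nat.mul_succ, Finset.sum_range_add, ih, zero_add]
    have := sum_period hχ (m + q * j)
    simpa [add_assoc] using this

lemma norm_sum_range_le [NeZero q] {χ : DirichletCharacter ℂ q} (hχ : χ ≠ 1) (m n : ℕ) :
    ‖∑ k ∈ range n, χ ((m + k : ℕ) : ZMod q)‖ ≤ q := by
  conv_lhs => rw [← Nat.div_add_mod n q]
  rw [Finset.sum_range_add, sum_blocks hχ, zero_add]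
  refine (norm_sum_le _ _).trans ?_
  calc ∑ x ∈ range (n % q), ‖χ ((m + (q * (n / q) + x) : ℕ) : ZMod q)‖
      ≤ ∑ x ∈ range (n % q), (1 : ℝ) := Finset.sum_le_sum fun _ _ => DirichletCharacter.norm_le_one χ _
    _ = (n % q : ℕ) := by simp
    _ ≤ q := by exact_mod_cast (Nat.mod_lt _ (Nat.pos_of_ne_zero (NeZero.ne q))).le

/-- the character sum -/
noncomputable def S (χ : DirichletCharacter ℂ q) (t : ℝ) : ℂ := ∑ k ∈ Icc 1 ⌊t⌋₊, χ (k : ZMod q)

lemma S_eq_range (χ : DirichletCharacter ℂ q) (n : ℕ) :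
    ∑ k ∈ Icc 1 n, χ (k : ZMod q) = ∑ k ∈ range n, χ ((1 + k : ℕ) : ZMod q) := by
  rw [Finset.range_eq_Ico, Finset.sum_Ico_add (fun k : ℕ => χ (k : ZMod q)) 0 n 1]
  congr 1

lemma norm_S_le [NeZero q] {χ : DirichletCharacter ℂ q} (hχ : χ ≠ 1) (t : ℝ) :
    ‖S χ t‖ ≤ q := by
  rw [S, S_eq_range]
  exact norm_sum_range_le hχ 1 _

lemma norm_S_le' (χ : DirichletCharacter ℂ q) {t : ℝ} (ht : 0 ≤ t) :
    ‖S χ t‖ ≤ t := by
  refine (norm_sum_le _ _).trans ?_
  calc ∑ k ∈ Icc 1 ⌊t⌋₊, ‖χ (k : ZMod q)‖ ≤ ∑ k ∈ Icc 1 ⌊t⌋₊, (1 : ℝ) :=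
        Finset.sum_le_sum fun _ _ => DirichletCharacter.norm_le_one χ _
    _ = (⌊t⌋₊ : ℕ) := by simp
    _ ≤ t := Nat.floor_le ht

lemma measurable_S (χ : DirichletCharacter ℂ q) : Measurable (S χ) :=
  (measurable_from_nat (f := fun n : ℕ => ∑ k ∈ Icc 1 n, χ (k : ZMod q))).comp Nat.measurable_floor

/-- the function whose Mellin transform is `L(s, χ) / s` -/
noncomputable def fS (χ : DirichletCharacter ℂ q) : ℝ → ℂ := (Set.Ioi (1 : ℝ)).indicator (S χ)

lemma norm_fS_le [NeZero q] {χ : DirichletCharacter ℂ q} (hχ : χ ≠ 1) (t : ℝ) :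
    ‖fS χ t‖ ≤ q := by
  unfold fS
  by_cases h : t ∈ Set.Ioi (1 : ℝ)
  · rw [Set.indicator_of_mem h]; exact norm_S_le hχ t
  · rw [Set.indicator_of_notMem h]; simp

lemma measurable_fS (χ : DirichletCharacter ℂ q) : Measurable (fS χ) :=
  (measurable_S χ).indicator measurableSet_Ioi

lemma mellin_fS (χ : DirichletCharacter ℂ q) (s : ℂ) :
    mellin (fS χ) (-s) = ∫ t in Set.Ioi (1 : ℝ), S χ t * (t : ℂ) ^ (-(s + 1)) := by
  rw [mellin]
  have h1 : ∀ t : ℝ, (t : ℂ) ^ (-s - 1) • fS χ t =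
      (Set.Ioi (1 : ℝ)).indicator (fun t : ℝ => S χ t * (t : ℂ) ^ (-(s + 1))) t := by
    intro t
    unfold fS
    by_cases h : t ∈ Set.Ioi (1 : ℝ)
    · rw [Set.indicator_of_mem h, Set.indicator_of_mem h, smul_eq_mul, mul_comm]
      congr 2
      ring
    · rw [Set.indicator_of_notMem h, Set.indicator_of_notMem h, smul_zero]
  simp_rw [h1]
  rw [setIntegral_indicator measurableSet_Ioi]
  congr 2
  ext t
  simp only [Set.mem_inter_iff, Set.mem_Ioi]
  constructor
  · exact fun h => h.2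
  · exact fun h => ⟨by linarith, h⟩

lemma mellin_fS_differentiableAt [NeZero q] {χ : DirichletCharacter ℂ q} (hχ : χ ≠ 1) {s : ℂ}
    (hs : s.re < 0) : DifferentiableAt ℂ (mellin (fS χ)) s := by
  refine mellin_differentiableAt_of_isBigO_rpow (a := 0) (b := s.re - 1) ?_ ?_ hs ?_ (by linarith)
  · refine (MeasureTheory.locallyIntegrable_const (μ := volume) ((q : ℝ))).mono
      (measurable_fS χ).aestronglyMeasurable ?_ |>.locallyIntegrableOn _
    refine Eventually.of_forall fun t => ?_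
    simpa using norm_fS_le hχ t
  · refine IsBigO.of_bound q ?_
    filter_upwards with t
    simpa using norm_fS_le hχ t
  · refine IsBigO.of_bound 1 ?_
    have : ∀ᶠ t : ℝ in 𝓝[>] 0, t < 1 :=
      eventually_nhdsWithin_of_eventually_nhds (eventually_lt_nhds one_pos)
    filter_upwards [this] with t ht
    have : fS χ t = 0 := Set.indicator_of_notMem (by simpa using ht.le) _
    rw [this, norm_zero]
    positivity

/-- integral representation of `L(s, χ)` for `Re s > 0` -/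
theorem LFunction_eq_integral [NeZero q] {χ : DirichletCharacter ℂ q} (hχ : χ ≠ 1) {s : ℂ}
    (hs : 0 < s.re) :
    DirichletCharacter.LFunction χ s =
      s * ∫ t in Set.Ioi (1 : ℝ), S χ t * (t : ℂ) ^ (-(s + 1)) := by
  rw [← mellin_fS]
  have hopen : IsOpen {s : ℂ | 0 < s.re} := continuous_re.isOpen_preimage _ isOpen_Ioi
  have hA : AnalyticOnNhd ℂ (DirichletCharacter.LFunction χ) {s : ℂ | 0 < s.re} :=
    (DirichletCharacter.differentiable_LFunction hχ).differentiableOn.analyticOnNhd hopen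
  have hB : AnalyticOnNhd ℂ (fun s => s * mellin (fS χ) (-s)) {s : ℂ | 0 < s.re} := by
    refine DifferentiableOn.analyticOnNhd (fun s hs => ?_) hopen
    have h1 : DifferentiableAt ℂ (mellin (fS χ)) (-s) :=
      mellin_fS_differentiableAt hχ (by simpa using hs)
    have h2 : DifferentiableAt ℂ (fun s : ℂ => mellin (fS χ) (-s)) s :=
      h1.comp s (differentiableAt_id.neg)
    exact (differentiableAt_id.mul h2).differentiableWithinAt
  have hpc : IsPreconnected {s : ℂ | 0 < s.re} := (convex_halfSpace_re_gt 0).isPreconnected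
  refine hA.eqOn_of_preconnected_of_eventuallyEq hB hpc (z₀ := 2) (by simp) ?_ hs
  have h2 : {s : ℂ | 1 < s.re} ∈ 𝓝 (2 : ℂ) :=
    (continuous_re.isOpen_preimage _ isOpen_Ioi).mem_nhds (by simp)
  filter_upwards [h2] with z hz
  have hz' : 1 < z.re := hz
  rw [mellin_fS, DirichletCharacter.LFunction_eq_LSeries χ hz']
  refine LSeries_eq_mul_integral (r := 0) _ le_rfl (by linarith)
    (DirichletCharacter.LSeriesSummable_of_one_lt_re χ hz') ?_
  refine IsBigO.of_bound q ?_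
  filter_upwards with n
  have := norm_S_le hχ (n : ℝ)
  simpa [S] using this

lemma norm_integrand (χ : DirichletCharacter ℂ q) (s : ℂ) {t : ℝ} (ht : t ∈ Set.Ioi (1 : ℝ)) :
    ‖S χ t * (t : ℂ) ^ (-(s + 1))‖ = ‖S χ t‖ * t ^ (-(s.re + 1)) := by
  have ht0 : 0 < t := lt_trans one_pos ht
  rw [norm_mul, Complex.norm_cpow_eq_rpow_re_of_pos ht0]
  simp

/-- `|L(s, χ)| ≤ |s| q / Re s` for `Re s > 0` -/
theorem norm_LFunction_le [NeZero q] {χ : DirichletCharacter ℂ q} (hχ : χ ≠ 1) {s : ℂ}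
    (hs : 0 < s.re) :
    ‖DirichletCharacter.LFunction χ s‖ ≤ ‖s‖ * (q / s.re) := by
  rw [LFunction_eq_integral hχ hs, norm_mul]
  refine mul_le_mul_of_nonneg_left ?_ (norm_nonneg _)
  have hint : IntegrableOn (fun t : ℝ => (q : ℝ) * t ^ (-(s.re + 1))) (Set.Ioi 1) :=
    (integrableOn_Ioi_rpow_of_lt (by linarith) one_pos).const_mul _
  calc ‖∫ t in Set.Ioi (1 : ℝ), S χ t * (t : ℂ) ^ (-(s + 1))‖
      ≤ ∫ t in Set.Ioi (1 : ℝ), (q : ℝ) * t ^ (-(s.re + 1)) := by
        refine norm_integral_le_of_norm_le hint ?_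
        filter_upwards [ae_restrict_mem measurableSet_Ioi] with t ht
        rw [norm_integrand χ s ht]
        exact mul_le_mul_of_nonneg_right (norm_S_le hχ t)
          (Real.rpow_nonneg (lt_trans one_pos ht).le _)
    _ = q / s.re := by
        rw [integral_const_mul, integral_Ioi_rpow_of_lt (by linarith) one_pos]
        simp
        field_simp


open Finset Filter MeasureTheory Topology Complex Asymptotics


/-- bound for character sums -/
theorem norm_charSum_le {q : ℕ} [NeZero q] {χ : DirichletCharacter ℂ q} (hχ : χ ≠ 1) (N : ℕ) :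
    ‖∑ n ∈ Icc 1 N, χ (n : ZMod q)‖ ≤ q := by
  rw [S_eq_range]
  exact norm_sum_range_le hχ 1 _

theorem hasDerivAt_cpow_neg (s : ℂ) {t : ℝ} (ht : 0 < t) :
    HasDerivAt (fun u : ℝ => (u : ℂ) ^ (-s)) (-s * (t : ℂ) ^ (-(s + 1))) t := by
  have h1 : HasDerivAt (fun u : ℂ => u ^ (-s)) (-s * (t : ℂ) ^ (-s - 1) * 1) (t : ℂ) :=
    (hasDerivAt_id (t : ℂ)).cpow_const (Or.inl (by simpa using ht))
  have h2 := h1.comp_ofReal
  rw [mul_one] at h2
  have h3 : -(s + 1) = -s - 1 := by ring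
  rw [h3]
  exact h2

theorem norm_cpow_le (s : ℂ) {t : ℝ} (ht : 0 < t) :
    ‖(t : ℂ) ^ (-(s + 1))‖ = t ^ (-s.re - 1) := by
  rw [Complex.norm_cpow_eq_rpow_re_of_pos ht]
  congr 1
  simp
  ring

theorem integrableOn_S {q : ℕ} [NeZero q] {χ : DirichletCharacter ℂ q} (hχ : χ ≠ 1)
    {s : ℂ} (hs : 0 < s.re) :
    IntegrableOn (fun t : ℝ => S χ t * (t : ℂ) ^ (-(s + 1))) (Set.Ioi 1) := by
  have hint : IntegrableOn (fun t : ℝ => (q : ℝ) * t ^ (-s.re - 1)) (Set.Ioi 1) :=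
    (integrableOn_Ioi_rpow_of_lt (by linarith) zero_lt_one).const_mul _
  refine Integrable.mono' hint ?_ ?_
  · refine ((measurable_S χ).aestronglyMeasurable).mul ?_
    refine ContinuousOn.aestronglyMeasurable (fun t ht => ?_) measurableSet_Ioi
    have ht' : (0 : ℝ) < t := lt_trans zero_lt_one ht
    exact ((continuousAt_cpow_const (by simpa using ht')).comp
      Complex.continuous_ofReal.continuousAt).continuousWithinAt
  · refine (ae_restrict_iff' measurableSet_Ioi).2 (Eventually.of_forall fun t ht => ?_)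
    have ht' : (0 : ℝ) < t := lt_trans zero_lt_one ht
    rw [norm_mul, norm_cpow_le s ht']
    exact mul_le_mul_of_nonneg_right (norm_S_le hχ t) (Real.rpow_nonneg ht'.le _)

/-- `L(s, χ)` minus its partial sum -/
theorem L_sub_eq {q : ℕ} [NeZero q] {χ : DirichletCharacter ℂ q} (hχ : χ ≠ 1)
    {s : ℂ} (hs : 0 < s.re) {N : ℕ} (hN : 1 ≤ N) :
    DirichletCharacter.LFunction χ s - ∑ n ∈ Icc 1 N, χ (n : ZMod q) * (n : ℂ) ^ (-s) =
      s * (∫ t in Set.Ioi (N : ℝ), S χ t * (t : ℂ) ^ (-(s + 1))) -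
        (N : ℂ) ^ (-s) * ∑ n ∈ Icc 1 N, χ (n : ZMod q) := by
  have hN' : (1 : ℝ) ≤ N := by exact_mod_cast hN
  have hint := integrableOn_S hχ hs
  have hsplit : ∫ t in Set.Ioi (1 : ℝ), S χ t * (t : ℂ) ^ (-(s + 1)) =
      (∫ t in Set.Ioc (1 : ℝ) N, S χ t * (t : ℂ) ^ (-(s + 1))) +
        ∫ t in Set.Ioi (N : ℝ), S χ t * (t : ℂ) ^ (-(s + 1)) := by
    rw [← setIntegral_union (Set.Ioc_disjoint_Ioi le_rfl) measurableSet_Ioi
      (hint.mono_set Set.Ioc_subset_Ioi_self) (hint.mono_set (Set.Ioi_subset_Ioi hN')),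
      Set.Ioc_union_Ioi_eq_Ioi hN']
  set c : ℕ → ℂ := fun n => if n = 0 then 0 else χ (n : ZMod q) with hc
  have hc0 : c 0 = 0 := by simp [hc]
  have hsum : ∀ (m : ℕ) (g : ℕ → ℂ), ∑ k ∈ Icc 0 m, g k * c k =
      ∑ k ∈ Icc 1 m, g k * χ (k : ZMod q) := by
    intro m g
    rw [← Finset.sum_subset (Finset.Icc_subset_Icc_left (Nat.zero_le 1))]
    · refine Finset.sum_congr rfl fun k hk => ?_
      have : k ≠ 0 := by
        have := (Finset.mem_Icc.1 hk).1
        omega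
      simp [hc, this]
    · intro k hk hk'
      have : k = 0 := by
        rw [Finset.mem_Icc] at hk hk'
        omega
      simp [this, hc0]
  have habel := sum_mul_eq_sub_integral_mul₀' (f := fun u : ℝ => (u : ℂ) ^ (-s)) c hc0 N
    (fun t ht => (hasDerivAt_cpow_neg s (lt_of_lt_of_le zero_lt_one ht.1)).differentiableAt) ?_
  · have h1 : ∀ t ∈ Set.Ioc (1 : ℝ) N, deriv (fun u : ℝ => (u : ℂ) ^ (-s)) t *
        ∑ k ∈ Icc 0 ⌊t⌋₊, c k = -s * (S χ t * (t : ℂ) ^ (-(s + 1))) := by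
      intro t ht
      rw [(hasDerivAt_cpow_neg s (lt_trans zero_lt_one ht.1)).deriv]
      have := hsum ⌊t⌋₊ (fun _ => 1)
      simp only [one_mul] at this
      rw [this, S]
      ring
    rw [setIntegral_congr_fun measurableSet_Ioc h1, integral_const_mul, hsum N] at habel
    have h2 := hsum N (fun _ => 1)
    simp only [one_mul] at h2
    rw [h2] at habel
    have h3 : ∑ n ∈ Icc 1 N, χ (n : ZMod q) * (n : ℂ) ^ (-s) =
        ∑ k ∈ Icc 1 N, ((k : ℝ) : ℂ) ^ (-s) * χ (k : ZMod q) := by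
      refine Finset.sum_congr rfl fun n _ => ?_
      push_cast
      ring
    rw [h3, habel, LFunction_eq_integral hχ hs, hsplit]
    push_cast
    ring
  · refine ContinuousOn.integrableOn_compact isCompact_Icc ?_
    intro t ht
    have ht' : (0 : ℝ) < t := lt_of_lt_of_le zero_lt_one ht.1
    have h1 : ContinuousAt (fun u : ℝ => -s * (u : ℂ) ^ (-(s + 1))) t :=
      continuousAt_const.mul ((continuousAt_cpow_const (by simpa using ht')).comp
        Complex.continuous_ofReal.continuousAt)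
    refine (h1.congr ?_).continuousWithinAt
    filter_upwards [lt_mem_nhds ht'] with u hu
    exact (hasDerivAt_cpow_neg s hu).deriv.symm

/-- (R) approximation of `L(s, χ)` by its partial sums for `Re s > 0` -/
theorem lapprox {q : ℕ} [NeZero q] {χ : DirichletCharacter ℂ q} (hχ : χ ≠ 1) {s : ℂ} (hs : 0 < s.re)
    {N : ℕ} (hN : 1 ≤ N) :
    ‖DirichletCharacter.LFunction χ s - ∑ n ∈ Icc 1 N, χ (n : ZMod q) * (n : ℂ) ^ (-s)‖ ≤
      2 * q * ‖s‖ / s.re * (N : ℝ) ^ (-s.re) := by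
  have hN0 : (0 : ℝ) < N := by exact_mod_cast hN
  rw [L_sub_eq hχ hs hN]
  have hNs : ‖(N : ℂ) ^ (-s)‖ = (N : ℝ) ^ (-s.re) := by
    have := Complex.norm_cpow_eq_rpow_re_of_pos hN0 (-s)
    simpa using this
  have h1 : ‖(N : ℂ) ^ (-s) * ∑ n ∈ Icc 1 N, χ (n : ZMod q)‖ ≤ (N : ℝ) ^ (-s.re) * q := by
    rw [norm_mul, hNs]
    exact mul_le_mul_of_nonneg_left (norm_charSum_le hχ N) (Real.rpow_nonneg hN0.le _)
  have hint : IntegrableOn (fun t : ℝ => (q : ℝ) * t ^ (-s.re - 1)) (Set.Ioi (N : ℝ)) :=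
    (integrableOn_Ioi_rpow_of_lt (by linarith only [hs]) hN0).const_mul _
  have h2 : ‖∫ t in Set.Ioi (N : ℝ), S χ t * (t : ℂ) ^ (-(s + 1))‖ ≤
      q * ((N : ℝ) ^ (-s.re) / s.re) := by
    refine (norm_integral_le_of_norm_le hint ?_).trans (le_of_eq ?_)
    · refine (ae_restrict_iff' measurableSet_Ioi).2 (Eventually.of_forall fun t ht => ?_)
      have ht' : (0 : ℝ) < t := lt_trans hN0 ht
      rw [norm_mul, norm_cpow_le s ht']
      exact mul_le_mul_of_nonneg_right (norm_S_le hχ t) (Real.rpow_nonneg ht'.le _)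
    · rw [integral_const_mul, integral_Ioi_rpow_of_lt (by linarith only [hs]) hN0]
      congr 1
      rw [show -s.re - 1 + 1 = -s.re by ring, neg_div_neg_eq]
  have hsre : s.re ≤ ‖s‖ := Complex.re_le_norm s
  have hNr : 0 ≤ (N : ℝ) ^ (-s.re) := Real.rpow_nonneg hN0.le _
  calc ‖s * (∫ t in Set.Ioi (N : ℝ), S χ t * (t : ℂ) ^ (-(s + 1))) -
        (N : ℂ) ^ (-s) * ∑ n ∈ Icc 1 N, χ (n : ZMod q)‖
      ≤ ‖s‖ * (q * ((N : ℝ) ^ (-s.re) / s.re)) + (N : ℝ) ^ (-s.re) * q := by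
        refine (norm_sub_le _ _).trans (add_le_add ?_ h1)
        rw [norm_mul]
        exact mul_le_mul_of_nonneg_left h2 (norm_nonneg _)
    _ ≤ ‖s‖ * (q * ((N : ℝ) ^ (-s.re) / s.re)) + (N : ℝ) ^ (-s.re) * q * (‖s‖ / s.re) := by
        refine add_le_add le_rfl (le_mul_of_one_le_right (by positivity) ?_)
        rw [one_le_div hs]
        exact hsre
    _ = 2 * q * ‖s‖ / s.re * (N : ℝ) ^ (-s.re) := by
        field_simp
        ring

end Vale.Agent.P026.H147
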