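import Vale.Agent.P026.H147.Local

/-!
# Continuation of a Dirichlet series from a bound for the partial sums
-/

set_option linter.all false

open Finset Complex Filter MeasureTheory Topology Asymptotics

namespace Vale.Agent.P026.H147

/-- If the partial sums of a bounded sequence are `O(N^θ)`, its Dirichlet series has an analytic
continuation to `Re s > θ`. -/
theorem continuation {f : ℕ → ℂ} (hf : Bdd f) {θ C : ℝ} (hθ : 0 ≤ θ) (hθ1 : θ ≤ 1)
    (h : ∀ N : ℕ, 1 ≤ N → ‖∑ n ∈ Icc 1 N, f n‖ ≤ C * (N : ℝ) ^ θ) :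
    ∃ F : ℂ → ℂ, DifferentiableOn ℂ F {s | θ < s.re} ∧ ∀ s, 1 < s.re → F s = LSeries f s := by
  set T : ℝ → ℂ := fun t => ∑ k ∈ Icc 1 ⌊t⌋₊, f k with hT
  set g : ℝ → ℂ := (Set.Ioi (1 : ℝ)).indicator T with hg
  have hC : 0 ≤ C := by
    have := h 1 le_rfl
    simp at this
    exact (norm_nonneg _).trans this
  have hTm : Measurable T :=
    (measurable_from_nat (f := fun n : ℕ => ∑ k ∈ Icc 1 n, f k)).comp Nat.measurable_floor
  have hgm : Measurable g := hTm.indicator measurableSet_Ioi
  have hTb : ∀ t : ℝ, 1 < t → ‖T t‖ ≤ C * t ^ θ := by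
    intro t ht
    have h1 : 1 ≤ ⌊t⌋₊ := (Nat.one_le_floor_iff t).2 ht.le
    refine (h _ h1).trans ?_
    gcongr
    exact Nat.floor_le (by linarith)
  have hgb : ∀ t : ℝ, 0 < t → ‖g t‖ ≤ C * t ^ θ := by
    intro t ht
    rw [hg]
    by_cases h1 : t ∈ Set.Ioi (1 : ℝ)
    · rw [Set.indicator_of_mem h1]; exact hTb t h1
    · rw [Set.indicator_of_notMem h1]; simp; positivity
  have hmel : ∀ s : ℂ, mellin g (-s) = ∫ t in Set.Ioi (1 : ℝ), T t * (t : ℂ) ^ (-(s + 1)) := by
    intro s
    rw [mellin]
    have h1 : ∀ t : ℝ, (t : ℂ) ^ (-s - 1) • g t =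
        (Set.Ioi (1 : ℝ)).indicator (fun t : ℝ => T t * (t : ℂ) ^ (-(s + 1))) t := by
      intro t
      rw [hg]
      by_cases h : t ∈ Set.Ioi (1 : ℝ)
      · rw [Set.indicator_of_mem h, Set.indicator_of_mem h, smul_eq_mul, mul_comm]
        congr 2
        ring
      · rw [Set.indicator_of_notMem h, Set.indicator_of_notMem h, smul_zero]
    simp_rw [h1]
    rw [setIntegral_indicator measurableSet_Ioi]
    congr 2
    ext t
    simp only [Set.mem_inter_iff, Set.mem_Ioi]
    constructor
    · exact fun h => h.2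
    · exact fun h => ⟨by linarith, h⟩
  have hdiff : ∀ s : ℂ, s.re < -θ → DifferentiableAt ℂ (mellin g) s := by
    intro s hs
    refine mellin_differentiableAt_of_isBigO_rpow (a := -θ) (b := s.re - 1) ?_ ?_ hs ?_ (by linarith)
    · have hloc : LocallyIntegrableOn (fun t : ℝ => C * t ^ θ) (Set.Ioi 0) := by
        refine ContinuousOn.locallyIntegrableOn ?_ measurableSet_Ioi
        refine continuousOn_const.mul ?_
        intro t ht
        exact (Real.continuousAt_rpow_const t θ (Or.inr hθ)).continuousWithinAt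
      rw [locallyIntegrableOn_iff (by exact (isOpen_Ioi.isLocallyClosed))] at hloc ⊢
      intro k hk hkc
      refine (hloc k hk hkc).mono' hgm.aestronglyMeasurable ?_
      refine (ae_restrict_iff' hkc.measurableSet).2 (Eventually.of_forall fun t ht => ?_)
      exact hgb t (hk ht)
    · refine IsBigO.of_bound C ?_
      filter_upwards [eventually_gt_atTop 0] with t ht
      rw [neg_neg, Real.norm_of_nonneg (Real.rpow_nonneg ht.le _)]
      exact hgb t ht
    · refine IsBigO.of_bound 1 ?_
      have : ∀ᶠ t : ℝ in 𝓝[>] 0, t < 1 :=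
        eventually_nhdsWithin_of_eventually_nhds (eventually_lt_nhds one_pos)
      filter_upwards [this] with t ht
      have : g t = 0 := Set.indicator_of_notMem (by simpa using ht.le) _
      rw [this, norm_zero]
      positivity
  refine ⟨fun s => s * mellin g (-s), fun s hs => ?_, fun s hs => ?_⟩
  · have h1 : DifferentiableAt ℂ (mellin g) (-s) := hdiff _ (by simpa using hs)
    have h2 : DifferentiableAt ℂ (fun s : ℂ => mellin g (-s)) s :=
      h1.comp s (differentiableAt_id.neg)
    exact (differentiableAt_id.mul h2).differentiableWithinAt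
  · simp only
    rw [hmel]
    refine (LSeries_eq_mul_integral (r := θ) _ hθ (by linarith) (hf.summable' hs) ?_).symm
    refine IsBigO.of_bound C ?_
    filter_upwards [eventually_ge_atTop 1] with n hn
    rw [Real.norm_of_nonneg (Real.rpow_nonneg (by positivity) _)]
    exact h n hn

end Vale.Agent.P026.H147
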