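import Vale.Agent.P026.H147.GoodPrime

/-!
# Dirichlet series `∑ μ(n) g(n) n^{-s}` with `g` bounded
-/

set_option linter.all false

open Finset Complex DirichletCharacter Filter ArithmeticFunction
open scoped ArithmeticFunction.Moebius

namespace Vale.Agent.P026.H147

/-- The Dirichlet series `∑ μ(n) g(n) n^{-s}`. -/
noncomputable def DS (g : ℕ → ℂ) (s : ℂ) : ℂ := LSeries (fun n => (μ n : ℂ) * g n) s

/-- Boundedness of a sequence. -/
def Bdd (g : ℕ → ℂ) : Prop := ∃ M : ℝ, ∀ n, ‖g n‖ ≤ M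

lemma norm_moebius_le (n : ℕ) : ‖((μ n : ℤ) : ℂ)‖ ≤ 1 := by
  rw [Complex.norm_intCast]
  exact_mod_cast (abs_moebius_le_one (n := n))

lemma Bdd.mulμ {g : ℕ → ℂ} (hg : Bdd g) : Bdd (fun n => (μ n : ℂ) * g n) := by
  obtain ⟨M, hM⟩ := hg
  refine ⟨M, fun n => ?_⟩
  rw [norm_mul]
  have := norm_moebius_le n
  have h0 := norm_nonneg (g n)
  nlinarith [hM n]

lemma Bdd.summable' {g : ℕ → ℂ} (hg : Bdd g) {s : ℂ} (hs : 1 < s.re) : LSeriesSummable g s := by
  obtain ⟨M, hM⟩ := hg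
  exact LSeriesSummable_of_bounded_of_one_lt_re (m := M) (fun n _ => hM n) hs

lemma Bdd.summable {g : ℕ → ℂ} (hg : Bdd g) {s : ℂ} (hs : 1 < s.re) :
    LSeriesSummable (fun n => (μ n : ℂ) * g n) s := hg.mulμ.summable' hs

lemma Bdd.add {f g : ℕ → ℂ} (hf : Bdd f) (hg : Bdd g) : Bdd (fun n => f n + g n) := by
  obtain ⟨M, hM⟩ := hf
  obtain ⟨M', hM'⟩ := hg
  exact ⟨M + M', fun n => (norm_add_le _ _).trans (add_le_add (hM n) (hM' n))⟩

lemma Bdd.smul {g : ℕ → ℂ} (c : ℂ) (hg : Bdd g) : Bdd (fun n => c * g n) := by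
  obtain ⟨M, hM⟩ := hg
  refine ⟨‖c‖ * M, fun n => ?_⟩
  rw [norm_mul]
  exact mul_le_mul_of_nonneg_left (hM n) (norm_nonneg _)

lemma Bdd.mul {f g : ℕ → ℂ} (hf : Bdd f) (hg : Bdd g) : Bdd (fun n => f n * g n) := by
  obtain ⟨M, hM⟩ := hf
  obtain ⟨M', hM'⟩ := hg
  refine ⟨M * M', fun n => ?_⟩
  rw [norm_mul]
  exact mul_le_mul (hM n) (hM' n) (norm_nonneg _) ((norm_nonneg _).trans (hM n))

lemma Bdd.zero : Bdd (fun _ => 0) := ⟨0, fun n => by simp⟩

lemma Bdd.sum {ι : Type*} {S : Finset ι} {g : ι → ℕ → ℂ} (h : ∀ i ∈ S, Bdd (g i)) :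
    Bdd (fun n => ∑ i ∈ S, g i n) := by
  classical
  induction S using Finset.induction_on with
  | empty => simpa using Bdd.zero
  | insert i S hi ih =>
    simp_rw [Finset.sum_insert hi]
    exact (h i (Finset.mem_insert_self _ _)).add (ih fun j hj => h j (Finset.mem_insert_of_mem hj))

lemma bdd_char {N : ℕ} (χ : DirichletCharacter ℂ N) : Bdd (fun n => χ (n : ZMod N)) :=
  ⟨1, fun n => norm_le_one χ _⟩

lemma bdd_zmod {N : ℕ} [NeZero N] (h : ZMod N → ℂ) : Bdd (fun n => h (n : ZMod N)) := by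
  refine ⟨∑ a, ‖h a‖, fun n => ?_⟩
  exact Finset.single_le_sum (f := fun a => ‖h a‖) (fun a _ => norm_nonneg _) (Finset.mem_univ _)

lemma Bdd.of_le {f g : ℕ → ℂ} (hg : Bdd g) (h : ∀ n, ‖f n‖ ≤ ‖g n‖) : Bdd f := by
  obtain ⟨M, hM⟩ := hg
  exact ⟨M, fun n => (h n).trans (hM n)⟩

lemma DS_add {f g : ℕ → ℂ} (hf : Bdd f) (hg : Bdd g) {s : ℂ} (hs : 1 < s.re) :
    DS (fun n => f n + g n) s = DS f s + DS g s := by
  unfold DS
  rw [← LSeries_add (hf.summable hs) (hg.summable hs)]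
  congr 1
  ext n
  simp [mul_add]

lemma DS_smul (c : ℂ) (g : ℕ → ℂ) (s : ℂ) : DS (fun n => c * g n) s = c * DS g s := by
  unfold DS
  rw [← LSeries_smul]
  congr 1
  ext n
  simp only [Pi.smul_apply, smul_eq_mul]
  ring

lemma DS_sum {ι : Type*} {S : Finset ι} {g : ι → ℕ → ℂ} (h : ∀ i ∈ S, Bdd (g i))
    {s : ℂ} (hs : 1 < s.re) :
    DS (fun n => ∑ i ∈ S, g i n) s = ∑ i ∈ S, DS (g i) s := by
  unfold DS
  rw [← LSeries_sum (f := fun i n => (μ n : ℂ) * g i n) (S := S) fun i hi => (h i hi).summable hs]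
  congr 1
  ext n
  simp [Finset.mul_sum]

lemma DS_char {N : ℕ} [NeZero N] (χ : DirichletCharacter ℂ N) {s : ℂ} (hs : 1 < s.re) :
    LFunction χ s * DS (fun n => χ (n : ZMod N)) s = 1 := by
  rw [LFunction_eq_LSeries χ hs, ← LSeries.mul_mu_eq_one χ hs]
  congr 1
  unfold DS
  congr 1
  ext n
  simp [mul_comm]

/-- Decomposition according to the greatest common divisor with `q`. -/
lemma DS_gcd {q : ℕ} (hq : q ≠ 0) {g : ℕ → ℂ} (hg : Bdd g) {s : ℂ} (hs : 1 < s.re) :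
    DS g s = ∑ d ∈ q.divisors, (μ d : ℂ) * (d : ℂ) ^ (-s) *
      DS (fun m => if m.Coprime q then g (d * m) else 0) s := by
  classical
  set F : ℕ → ℂ := LSeries.term (fun n => (μ n : ℂ) * g n) s with hF
  have hFs : Summable F := hg.summable hs
  set M : Type := {m : ℕ // m.Coprime q}
  set i : (↥q.divisors) × M → ℕ := fun x => (x.1 : ℕ) * (x.2 : ℕ) with hi
  have hgcd : ∀ x : (↥q.divisors) × M, Nat.gcd (i x) q = x.1 := by
    rintro ⟨⟨d, hd⟩, ⟨m, hm⟩⟩
    simp only [hi]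
    rw [Nat.Coprime.gcd_mul_right_cancel d hm]
    exact Nat.gcd_eq_left (Nat.dvd_of_mem_divisors hd)
  have hinj : Function.Injective i := by
    rintro ⟨⟨d, hd⟩, ⟨m, hm⟩⟩ ⟨⟨d', hd'⟩, ⟨m', hm'⟩⟩ h
    have h1 := hgcd ⟨⟨d, hd⟩, ⟨m, hm⟩⟩
    have h2 := hgcd ⟨⟨d', hd'⟩, ⟨m', hm'⟩⟩
    rw [h] at h1
    rw [h1] at h2
    have h3 : d = d' := h2
    subst h3
    have hd0 : 0 < d := Nat.pos_of_mem_divisors hd
    have h4 : d * m = d * m' := h
    have h5 := Nat.eq_of_mul_eq_mul_left hd0 h4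
    subst h5
    rfl
  have hsupp : Function.support F ⊆ Set.range i := by
    intro n hn
    rw [Function.mem_support] at hn
    have hn0 : n ≠ 0 := by
      rintro rfl
      exact hn (by rw [hF]; simp)
    have hμ : μ n ≠ 0 := by
      intro h
      apply hn
      rw [hF, LSeries.term_of_ne_zero hn0, h]
      simp
    have hsq : Squarefree n := moebius_ne_zero_iff_squarefree.1 hμ
    have hdvd : Nat.gcd n q ∣ n := Nat.gcd_dvd_left n q
    have hcop : (n / Nat.gcd n q).Coprime q := by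
      have h1 : n = Nat.gcd n q * (n / Nat.gcd n q) := (Nat.mul_div_cancel' hdvd).symm
      have h2 : (n / Nat.gcd n q).Coprime (Nat.gcd n q) := by
        rw [h1] at hsq
        have := (Nat.squarefree_mul_iff).1 hsq
        exact this.1.symm
      have h3 : (n / Nat.gcd n q).Coprime (q / Nat.gcd n q) :=
        Nat.coprime_div_gcd_div_gcd (Nat.gcd_pos_of_pos_left _ (Nat.pos_of_ne_zero hn0))
      have h4 : q = Nat.gcd n q * (q / Nat.gcd n q) := (Nat.mul_div_cancel' (Nat.gcd_dvd_right n q)).symm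
      rw [h4]
      have h5 := Nat.Coprime.mul_right h2 h3
      rw [← h4] at h5 ⊢
      exact h5
    refine ⟨⟨⟨Nat.gcd n q, Nat.mem_divisors.2 ⟨Nat.gcd_dvd_right n q, hq⟩⟩,
      ⟨n / Nat.gcd n q, hcop⟩⟩, ?_⟩
    simp only [hi]
    exact Nat.mul_div_cancel' hdvd
  have h1 : DS g s = ∑' x, F (i x) := by
    rw [hinj.tsum_eq hsupp]
    rfl
  have hsum2 : Summable (fun x => F (i x)) := hFs.comp_injective hinj
  rw [h1, hsum2.tsum_prod, tsum_fintype, ← Finset.sum_coe_sort q.divisors]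
  refine Finset.sum_congr rfl fun d _ => ?_
  have hd0 : (d : ℕ) ≠ 0 := (Nat.pos_of_mem_divisors d.2).ne'
  have hdq : (d : ℕ) ∣ q := Nat.dvd_of_mem_divisors d.2
  unfold DS LSeries
  rw [← tsum_mul_left]
  have h2 : ∀ m : ℕ, ((μ (d : ℕ) : ℤ) : ℂ) * ((d : ℕ) : ℂ) ^ (-s) *
      LSeries.term (fun m => (μ m : ℂ) * (if m.Coprime q then g (d * m) else 0)) s m =
      Set.indicator {m : ℕ | m.Coprime q} (fun m => F (d * m)) m := by
    intro m
    by_cases hm : m.Coprime q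
    · rw [Set.indicator_of_mem (show m ∈ {m : ℕ | m.Coprime q} from hm)]
      rcases eq_or_ne m 0 with rfl | hm0
      · simp [hF]
      · rw [hF, LSeries.term_of_ne_zero hm0, LSeries.term_of_ne_zero (mul_ne_zero hd0 hm0), if_pos hm]
        have h3 : μ ((d : ℕ) * m) = μ (d : ℕ) * μ m :=
          isMultiplicative_moebius.map_mul_of_coprime (Nat.Coprime.coprime_dvd_left hdq hm.symm)
        rw [h3]
        have h4 : (((d : ℕ) * m : ℕ) : ℂ) ^ s = ((d : ℕ) : ℂ) ^ s * (m : ℂ) ^ s := by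
          push_cast
          exact Complex.natCast_mul_natCast_cpow _ _ _
        rw [h4, Complex.cpow_neg]
        have h5 : ((d : ℕ) : ℂ) ^ s ≠ 0 := by
          rw [Ne, Complex.cpow_eq_zero_iff]
          push Not
          intro h
          exact absurd h (by exact_mod_cast hd0)
        have h6 : (m : ℂ) ^ s ≠ 0 := by
          rw [Ne, Complex.cpow_eq_zero_iff]
          push Not
          intro h
          exact absurd h (by exact_mod_cast hm0)
        push_cast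
        field_simp
    · rw [Set.indicator_of_notMem (show m ∉ {m : ℕ | m.Coprime q} from hm)]
      rcases eq_or_ne m 0 with rfl | hm0
      · simp
      · rw [LSeries.term_of_ne_zero hm0, if_neg hm]
        simp
  simp_rw [h2]
  rw [← _root_.tsum_subtype]
  rfl

end Vale.Agent.P026.H147
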