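import Vale.Agent.P026.H147.Char

/-!
# Zero detecting polynomials
-/

set_option linter.all false

open Finset Complex ArithmeticFunction
open scoped ArithmeticFunction.Moebius ArithmeticFunction.zeta

namespace Vale.Agent.P026.H147

/-- Coefficients of the mollified partial sum. -/
def ac (z k : ℕ) : ℤ :=
  ∑ x ∈ k.divisorsAntidiagonal.filter (fun x => x.1 ≤ z ∧ x.2 ≤ z), μ x.1

lemma ac_one {z : ℕ} (hz : 1 ≤ z) : ac z 1 = 1 := by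
  unfold ac
  rw [Nat.divisorsAntidiagonal_one, Finset.filter_singleton]
  simp [hz]

lemma ac_small {z k : ℕ} (hk : 1 < k) (hkz : k ≤ z) : ac z k = 0 := by
  unfold ac
  rw [Finset.filter_true_of_mem]
  · have h1 : (μ * (ζ : ArithmeticFunction ℤ)) k = 0 := by
      rw [moebius_mul_coe_zeta, one_apply_ne hk.ne']
    rw [← h1, ArithmeticFunction.mul_apply]
    refine Finset.sum_congr rfl fun x hx => ?_
    have h2 := (Nat.mem_divisorsAntidiagonal.1 hx)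
    have h3 : x.2 ≠ 0 := by
      rintro h3
      rw [h3, mul_zero] at h2
      omega
    simp [h3]
  · intro x hx
    have h2 := (Nat.mem_divisorsAntidiagonal.1 hx)
    have h3 : x.1 ∣ k := Dvd.intro _ h2.1
    have h4 : x.2 ∣ k := Dvd.intro_left _ h2.1
    exact ⟨(Nat.le_of_dvd (by omega) h3).trans hkz, (Nat.le_of_dvd (by omega) h4).trans hkz⟩

lemma abs_ac_le (z k : ℕ) : |(ac z k : ℝ)| ≤ k.divisors.card := by
  unfold ac
  push_cast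
  calc |∑ x ∈ k.divisorsAntidiagonal.filter (fun x => x.1 ≤ z ∧ x.2 ≤ z), ((μ x.1 : ℤ) : ℝ)|
      ≤ ∑ x ∈ k.divisorsAntidiagonal.filter (fun x => x.1 ≤ z ∧ x.2 ≤ z), |((μ x.1 : ℤ) : ℝ)| :=
        Finset.abs_sum_le_sum_abs _ _
    _ ≤ ∑ x ∈ k.divisorsAntidiagonal.filter (fun x => x.1 ≤ z ∧ x.2 ≤ z), (1 : ℝ) := by
        refine Finset.sum_le_sum fun x _ => ?_
        exact_mod_cast (abs_moebius_le_one (n := x.1))
    _ = ((k.divisorsAntidiagonal.filter (fun x => x.1 ≤ z ∧ x.2 ≤ z)).card : ℝ) := by simp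
    _ ≤ k.divisorsAntidiagonal.card := by
        exact_mod_cast Finset.card_filter_le _ _
    _ = k.divisors.card := by
        rw [← Nat.map_div_right_divisors, Finset.card_map]

/-- The product of the partial sum and the mollifier. -/
lemma mollify (h : ℕ → ℂ) (hm : ∀ a b, h (a * b) = h a * h b) (z : ℕ) :
    (∑ n ∈ Icc 1 z, h n) * (∑ m ∈ Icc 1 z, (μ m : ℂ) * h m) =
      ∑ k ∈ Icc 1 (z ^ 2), (ac z k : ℂ) * h k := by
  rw [mul_comm, Finset.sum_mul_sum, ← Finset.sum_product']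
  have h1 : ∀ x ∈ Icc 1 z ×ˢ Icc 1 z, x.1 * x.2 ∈ Icc 1 (z ^ 2) := by
    intro x hx
    rw [Finset.mem_product, Finset.mem_Icc, Finset.mem_Icc] at hx
    rw [Finset.mem_Icc]
    refine ⟨Nat.mul_pos hx.1.1 hx.2.1, ?_⟩
    rw [sq]
    exact Nat.mul_le_mul hx.1.2 hx.2.2
  rw [← Finset.sum_fiberwise_of_maps_to h1]
  refine Finset.sum_congr rfl fun k hk => ?_
  rw [Finset.mem_Icc] at hk
  have h2 : (Icc 1 z ×ˢ Icc 1 z).filter (fun x => x.1 * x.2 = k) =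
      k.divisorsAntidiagonal.filter (fun x => x.1 ≤ z ∧ x.2 ≤ z) := by
    ext x
    simp only [Finset.mem_filter, Finset.mem_product, Finset.mem_Icc, Nat.mem_divisorsAntidiagonal]
    constructor
    · rintro ⟨⟨⟨h3, h4⟩, h5, h6⟩, h7⟩
      exact ⟨⟨h7, by omega⟩, h4, h6⟩
    · rintro ⟨⟨h7, h8⟩, h4, h6⟩
      have h9 : x.1 ≠ 0 := by rintro h9; rw [h9, zero_mul] at h7; omega
      have h10 : x.2 ≠ 0 := by rintro h9; rw [h9, mul_zero] at h7; omega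
      exact ⟨⟨⟨by omega, h4⟩, by omega, h6⟩, h7⟩
  rw [h2, ac]
  push_cast
  rw [Finset.sum_mul]
  refine Finset.sum_congr rfl fun x hx => ?_
  have h3 := (Nat.mem_divisorsAntidiagonal.1 (Finset.mem_filter.1 hx).1).1
  rw [← h3, hm]
  ring

lemma mollify_split (h : ℕ → ℂ) (h1 : h 1 = 1) (hm : ∀ a b, h (a * b) = h a * h b) (z : ℕ)
    (hz : 1 ≤ z) :
    (∑ n ∈ Icc 1 z, h n) * (∑ m ∈ Icc 1 z, (μ m : ℂ) * h m) =
      1 + ∑ k ∈ Ioc z (z ^ 2), (ac z k : ℂ) * h k := by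
  rw [mollify h hm]
  have hzz : z ≤ z ^ 2 := by nlinarith
  have e1 : Icc 1 (z ^ 2) = Ioc 0 (z ^ 2) := by
    ext k; simp only [Finset.mem_Icc, Finset.mem_Ioc]; omega
  have e2 : Ioc 0 (z ^ 2) = Ioc 0 z ∪ Ioc z (z ^ 2) := by
    rw [Finset.Ioc_union_Ioc_eq_Ioc (Nat.zero_le z) hzz]
  have e3 : Ioc 0 z = insert 1 (Ioc 1 z) := by
    ext k; simp only [Finset.mem_insert, Finset.mem_Ioc]; omega
  rw [e1, e2, Finset.sum_union (Finset.Ioc_disjoint_Ioc_of_le le_rfl), e3,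
    Finset.sum_insert (by simp), ac_one hz, h1]
  rw [Finset.sum_eq_zero (s := Ioc 1 z)]
  · simp
  · intro k hk
    rw [Finset.mem_Ioc] at hk
    rw [ac_small hk.1 hk.2]
    simp

lemma sum_rpow_le (z : ℕ) : ∑ m ∈ Icc 1 z, (m : ℝ) ^ (-(1 / 2) : ℝ) ≤ 2 * √(z : ℝ) := by
  induction z with
  | zero => simp
  | succ z ih =>
    rw [Finset.sum_Icc_succ_top (by omega)]
    have h1 : ((z + 1 : ℕ) : ℝ) ^ (-(1 / 2) : ℝ) = 1 / √((z + 1 : ℕ) : ℝ) := by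
      rw [Real.rpow_neg (by positivity), ← Real.sqrt_eq_rpow, one_div]
    rw [h1]
    have h2 : (0 : ℝ) ≤ √(z : ℝ) := Real.sqrt_nonneg _
    have h3 : (0 : ℝ) < √((z + 1 : ℕ) : ℝ) := Real.sqrt_pos.2 (by positivity)
    have h4 : √((z + 1 : ℕ) : ℝ) ^ 2 = z + 1 := by
      rw [Real.sq_sqrt (by positivity)]; push_cast; ring
    have h5 : √(z : ℝ) ^ 2 = z := Real.sq_sqrt (by positivity)
    have h6 : 1 / √((z + 1 : ℕ) : ℝ) ≤ 2 * √((z + 1 : ℕ) : ℝ) - 2 * √(z : ℝ) := by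
      rw [div_le_iff₀ h3]
      nlinarith [sq_nonneg (√((z + 1 : ℕ) : ℝ) - √(z : ℝ))]
    linarith

/-- A zero at `ρ` is detected. -/
theorem detect {D : ℕ} [NeZero D] {ξ : DirichletCharacter ℂ D} (hξ : ξ ≠ 1) {ρ : ℂ}
    (h1 : 1 / 2 ≤ ρ.re) (h0 : DirichletCharacter.LFunction ξ ρ = 0) {z : ℕ} (hz : 1 ≤ z)
    (hbig : 8 * D * ‖ρ‖ / ρ.re * (z : ℝ) ^ (-ρ.re) * √(z : ℝ) ≤ 1) :
    1 / 2 ≤ ‖∑ k ∈ Ioc z (z ^ 2), ((ac z k : ℂ) * (k : ℂ) ^ (-ρ)) * ξ (k : ZMod D)‖ := by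
  have hρ0 : 0 < ρ.re := by linarith
  set h : ℕ → ℂ := fun n => ξ (n : ZMod D) * (n : ℂ) ^ (-ρ) with hh
  have hh1 : h 1 = 1 := by simp [hh]
  have hhm : ∀ a b, h (a * b) = h a * h b := by
    intro a b
    simp only [hh]
    push_cast
    rw [map_mul]
    have := Complex.natCast_mul_natCast_cpow a b (-ρ)
    rw [this]
    ring
  have hA : ‖∑ n ∈ Icc 1 z, h n‖ ≤ 2 * D * ‖ρ‖ / ρ.re * (z : ℝ) ^ (-ρ.re) := by
    have := lapprox hξ hρ0 hz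
    rw [h0, zero_sub, norm_neg] at this
    exact this
  have hM : ‖∑ m ∈ Icc 1 z, (μ m : ℂ) * h m‖ ≤ 2 * √(z : ℝ) := by
    refine (norm_sum_le _ _).trans (le_trans (Finset.sum_le_sum fun m hm => ?_) (sum_rpow_le z))
    rw [Finset.mem_Icc] at hm
    have hm0 : (0 : ℝ) < m := by exact_mod_cast hm.1
    have hm1 : (1 : ℝ) ≤ m := by exact_mod_cast hm.1
    rw [norm_mul, hh]
    simp only
    rw [norm_mul]
    have e1 : ‖((μ m : ℤ) : ℂ)‖ ≤ 1 := by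
      rw [Complex.norm_intCast]
      exact_mod_cast (abs_moebius_le_one (n := m))
    have e2 : ‖ξ (m : ZMod D)‖ ≤ 1 := DirichletCharacter.norm_le_one _ _
    have e3 : ‖(m : ℂ) ^ (-ρ)‖ = (m : ℝ) ^ (-ρ.re) := by
      have := Complex.norm_cpow_eq_rpow_re_of_pos hm0 (-ρ)
      simpa using this
    have e4 : (m : ℝ) ^ (-ρ.re) ≤ (m : ℝ) ^ (-(1 / 2) : ℝ) :=
      Real.rpow_le_rpow_of_exponent_le hm1 (by linarith)
    rw [e3]
    have e5 : 0 ≤ (m : ℝ) ^ (-ρ.re) := Real.rpow_nonneg hm0.le _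
    calc ‖((μ m : ℤ) : ℂ)‖ * (‖ξ (m : ZMod D)‖ * (m : ℝ) ^ (-ρ.re)) ≤
        1 * (1 * (m : ℝ) ^ (-ρ.re)) := by gcongr
      _ ≤ _ := by linarith
  have key := mollify_split h hh1 hhm z hz
  have hprod : ‖(∑ n ∈ Icc 1 z, h n) * (∑ m ∈ Icc 1 z, (μ m : ℂ) * h m)‖ ≤ 1 / 2 := by
    rw [norm_mul]
    calc _ ≤ (2 * D * ‖ρ‖ / ρ.re * (z : ℝ) ^ (-ρ.re)) * (2 * √(z : ℝ)) :=
          mul_le_mul hA hM (norm_nonneg _) ((norm_nonneg _).trans hA)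
      _ = (8 * D * ‖ρ‖ / ρ.re * (z : ℝ) ^ (-ρ.re) * √(z : ℝ)) / 2 := by ring
      _ ≤ 1 / 2 := by linarith
  rw [key] at hprod
  have e1 : ∑ k ∈ Ioc z (z ^ 2), ((ac z k : ℂ) * (k : ℂ) ^ (-ρ)) * ξ (k : ZMod D) =
      ∑ k ∈ Ioc z (z ^ 2), (ac z k : ℂ) * h k := by
    refine Finset.sum_congr rfl fun k _ => ?_
    simp only [hh]
    ring
  rw [e1]
  set T := ∑ k ∈ Ioc z (z ^ 2), (ac z k : ℂ) * h k
  have h5 : ‖(1 : ℂ)‖ ≤ ‖(1 : ℂ) + T‖ + ‖T‖ := by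
    calc ‖(1 : ℂ)‖ = ‖(1 + T) - T‖ := by congr 1; ring
      _ ≤ _ := norm_sub_le _ _
  rw [norm_one] at h5
  linarith

end Vale.Agent.P026.H147
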