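import Mathlib

/-!
# Duality: a large values inequality for almost orthogonal bounded functions
-/

set_option linter.all false

open Finset Complex

namespace Vale.Agent.P026.H147

/-- Abel summation with the weights `1 / k`. -/
lemma abel_inv (c : ℕ → ℂ) (z : ℕ) (hz : 1 ≤ z) (D : ℝ)
    (hc : ∀ n, ‖∑ k ∈ Ioc z n, c k‖ ≤ D) (X : ℕ) :
    ‖∑ k ∈ Ioc z X, ((1 / (k : ℝ) : ℝ) : ℂ) * c k‖ ≤ D / z := by
  have hD : 0 ≤ D := (norm_nonneg _).trans (hc 0)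
  have hz0 : (0 : ℝ) < z := by exact_mod_cast hz
  rcases le_or_gt X z with h | h
  · rw [Finset.Ioc_eq_empty (by omega)]
    simp
    positivity
  have key : ∀ m : ℕ, ‖∑ k ∈ Ioc z (z + m), ((1 / (k : ℝ) : ℝ) : ℂ) * c k -
      ((1 / ((z + m : ℕ) : ℝ) : ℝ) : ℂ) * ∑ k ∈ Ioc z (z + m), c k‖ ≤
      D * (1 / (z : ℝ) - 1 / ((z + m : ℕ) : ℝ)) := by
    intro m
    induction m with
    | zero => simp
    | succ m ih =>
      have h1 : z ≤ z + m := by omega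
      rw [← add_assoc, Finset.sum_Ioc_succ_top h1, Finset.sum_Ioc_succ_top h1]
      have h2 : (0 : ℝ) < ((z + m : ℕ) : ℝ) := by
        have : 0 < z + m := by omega
        exact_mod_cast this
      have h3 : (0 : ℝ) ≤ 1 / ((z + m : ℕ) : ℝ) - 1 / ((z + m + 1 : ℕ) : ℝ) := by
        rw [sub_nonneg]
        apply one_div_le_one_div_of_le h2
        push_cast
        linarith
      have h4 : ∑ k ∈ Ioc z (z + m), ((1 / (k : ℝ) : ℝ) : ℂ) * c k +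
            ((1 / ((z + m + 1 : ℕ) : ℝ) : ℝ) : ℂ) * c (z + m + 1) -
          ((1 / ((z + m + 1 : ℕ) : ℝ) : ℝ) : ℂ) * (∑ k ∈ Ioc z (z + m), c k + c (z + m + 1)) =
          (∑ k ∈ Ioc z (z + m), ((1 / (k : ℝ) : ℝ) : ℂ) * c k -
            ((1 / ((z + m : ℕ) : ℝ) : ℝ) : ℂ) * ∑ k ∈ Ioc z (z + m), c k) +
          ((1 / ((z + m : ℕ) : ℝ) - 1 / ((z + m + 1 : ℕ) : ℝ) : ℝ) : ℂ) *
            ∑ k ∈ Ioc z (z + m), c k := by
        push_cast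
        ring
      rw [h4]
      refine (norm_add_le _ _).trans ?_
      have h5 : ‖((1 / ((z + m : ℕ) : ℝ) - 1 / ((z + m + 1 : ℕ) : ℝ) : ℝ) : ℂ) *
            ∑ k ∈ Ioc z (z + m), c k‖ ≤
          (1 / ((z + m : ℕ) : ℝ) - 1 / ((z + m + 1 : ℕ) : ℝ)) * D := by
        rw [norm_mul, Complex.norm_real, Real.norm_of_nonneg h3]
        exact mul_le_mul_of_nonneg_left (hc _) h3
      linarith
  obtain ⟨m, rfl⟩ : ∃ m, X = z + m := ⟨X - z, by omega⟩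
  have h2 : (0 : ℝ) < ((z + m : ℕ) : ℝ) := by
    have : 0 < z + m := by omega
    exact_mod_cast this
  have h6 : ‖((1 / ((z + m : ℕ) : ℝ) : ℝ) : ℂ) * ∑ k ∈ Ioc z (z + m), c k‖ ≤
      (1 / ((z + m : ℕ) : ℝ)) * D := by
    rw [norm_mul, Complex.norm_real, Real.norm_of_nonneg (by positivity)]
    exact mul_le_mul_of_nonneg_left (hc _) (by positivity)
  have h7 := key m
  calc _ = ‖(∑ k ∈ Ioc z (z + m), ((1 / (k : ℝ) : ℝ) : ℂ) * c k -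
      ((1 / ((z + m : ℕ) : ℝ) : ℝ) : ℂ) * ∑ k ∈ Ioc z (z + m), c k) +
      ((1 / ((z + m : ℕ) : ℝ) : ℝ) : ℂ) * ∑ k ∈ Ioc z (z + m), c k‖ := by congr 1; ring
    _ ≤ _ := norm_add_le _ _
    _ ≤ D * (1 / (z : ℝ) - 1 / ((z + m : ℕ) : ℝ)) + (1 / ((z + m : ℕ) : ℝ)) * D := add_le_add h7 h6
    _ = D / z := by ring

/-- The large values inequality. -/
theorem duality {ι : Type*} (S : Finset ι) (f : ι → ℕ → ℂ) (z X : ℕ) (hz : 1 ≤ z)
    (b : ℕ → ℂ) (D : ℝ) (hD : 0 ≤ D) (hf : ∀ i ∈ S, ∀ k, ‖f i k‖ ≤ 1)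
    (hoff : ∀ i ∈ S, ∀ j ∈ S, i ≠ j → ∀ n,
      ‖∑ k ∈ Ioc z n, f i k * (starRingEnd ℂ) (f j k)‖ ≤ D) :
    (∑ i ∈ S, ‖∑ k ∈ Ioc z X, b k * f i k‖) ^ 2 ≤
      (∑ k ∈ Ioc z X, ‖b k‖ ^ 2 * k) *
        (S.card * ∑ k ∈ Ioc z X, (1 / (k : ℝ)) + S.card ^ 2 * (D / z)) := by
  classical
  have hz0 : (0 : ℝ) < z := by exact_mod_cast hz
  have hθ : ∀ y : ℂ, ∃ t : ℂ, ‖t‖ ≤ 1 ∧ t * y = ‖y‖ := by
    intro y
    by_cases hy : y = 0
    · exact ⟨0, by simp, by simp [hy]⟩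
    · refine ⟨(‖y‖ : ℂ) / y, ?_, ?_⟩
      · rw [norm_div]
        simp [hy]
      · field_simp
  choose t ht1 ht2 using hθ
  set Y : ι → ℂ := fun i => ∑ k ∈ Ioc z X, b k * f i k with hY
  set g : ℕ → ℂ := fun k => ∑ i ∈ S, t (Y i) * f i k with hg
  have h1 : ((∑ i ∈ S, ‖Y i‖ : ℝ) : ℂ) = ∑ k ∈ Ioc z X, b k * g k := by
    push_cast
    simp_rw [← ht2, hg, hY, Finset.mul_sum]
    rw [Finset.sum_comm]
    refine Finset.sum_congr rfl fun k _ => Finset.sum_congr rfl fun i _ => ?_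
    ring
  have h2 : (∑ i ∈ S, ‖Y i‖) ≤ ∑ k ∈ Ioc z X, ‖b k‖ * ‖g k‖ := by
    have h3 : (∑ i ∈ S, ‖Y i‖) = ‖((∑ i ∈ S, ‖Y i‖ : ℝ) : ℂ)‖ := by
      rw [Complex.norm_real, Real.norm_of_nonneg (Finset.sum_nonneg fun _ _ => norm_nonneg _)]
    rw [h3, h1]
    refine (norm_sum_le _ _).trans (le_of_eq ?_)
    simp_rw [norm_mul]
  have h3 : (∑ k ∈ Ioc z X, ‖b k‖ * ‖g k‖) ^ 2 ≤
      (∑ k ∈ Ioc z X, ‖b k‖ ^ 2 * k) * ∑ k ∈ Ioc z X, (1 / (k : ℝ)) * ‖g k‖ ^ 2 := by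
    have h4 : ∀ k ∈ Ioc z X, (0 : ℝ) < k := by
      intro k hk
      have : 0 < k := by have := (Finset.mem_Ioc.1 hk).1; omega
      exact_mod_cast this
    have h5 := Finset.sum_mul_sq_le_sq_mul_sq (Ioc z X) (fun k => ‖b k‖ * √(k : ℝ))
      (fun k => ‖g k‖ / √(k : ℝ))
    calc (∑ k ∈ Ioc z X, ‖b k‖ * ‖g k‖) ^ 2 =
        (∑ k ∈ Ioc z X, (‖b k‖ * √(k : ℝ)) * (‖g k‖ / √(k : ℝ))) ^ 2 := by
          congr 1
          refine Finset.sum_congr rfl fun k hk => ?_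
          have := Real.sqrt_pos.2 (h4 k hk)
          field_simp
      _ ≤ _ := h5
      _ = _ := by
          congr 1
          · refine Finset.sum_congr rfl fun k hk => ?_
            rw [mul_pow, Real.sq_sqrt (h4 k hk).le]
          · refine Finset.sum_congr rfl fun k hk => ?_
            rw [div_pow, Real.sq_sqrt (h4 k hk).le]
            ring
  have h4 : ((∑ k ∈ Ioc z X, (1 / (k : ℝ)) * ‖g k‖ ^ 2 : ℝ) : ℂ) =
      ∑ i ∈ S, ∑ j ∈ S, t (Y i) * (starRingEnd ℂ) (t (Y j)) *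
        ∑ k ∈ Ioc z X, ((1 / (k : ℝ) : ℝ) : ℂ) * (f i k * (starRingEnd ℂ) (f j k)) := by
    have h5 : ∀ k : ℕ, (((1 / (k : ℝ)) * ‖g k‖ ^ 2 : ℝ) : ℂ) =
        ∑ i ∈ S, ∑ j ∈ S, ((1 / (k : ℝ) : ℝ) : ℂ) *
          ((t (Y i) * (starRingEnd ℂ) (t (Y j))) * (f i k * (starRingEnd ℂ) (f j k))) := by
      intro k
      have h6 : ((‖g k‖ ^ 2 : ℝ) : ℂ) = g k * (starRingEnd ℂ) (g k) := by
        rw [Complex.mul_conj, Complex.normSq_eq_norm_sq]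
      rw [Complex.ofReal_mul, h6, hg]
      simp only [map_sum, map_mul]
      rw [Finset.sum_mul_sum, Finset.mul_sum]
      refine Finset.sum_congr rfl fun i _ => ?_
      rw [Finset.mul_sum]
      refine Finset.sum_congr rfl fun j _ => ?_
      ring
    rw [Complex.ofReal_sum]
    rw [Finset.sum_congr rfl fun k _ => h5 k, Finset.sum_comm]
    refine Finset.sum_congr rfl fun i _ => ?_
    rw [Finset.sum_comm]
    refine Finset.sum_congr rfl fun j _ => ?_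
    rw [Finset.mul_sum]
    refine Finset.sum_congr rfl fun k _ => ?_
    ring
  have h5 : ∑ k ∈ Ioc z X, (1 / (k : ℝ)) * ‖g k‖ ^ 2 ≤
      S.card * ∑ k ∈ Ioc z X, (1 / (k : ℝ)) + S.card ^ 2 * (D / z) := by
    have h0 : 0 ≤ ∑ k ∈ Ioc z X, (1 / (k : ℝ)) * ‖g k‖ ^ 2 :=
      Finset.sum_nonneg fun k _ => by positivity
    have h6 : ∑ k ∈ Ioc z X, (1 / (k : ℝ)) * ‖g k‖ ^ 2 =
        ‖((∑ k ∈ Ioc z X, (1 / (k : ℝ)) * ‖g k‖ ^ 2 : ℝ) : ℂ)‖ := by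
      rw [Complex.norm_real, Real.norm_of_nonneg h0]
    rw [h6, h4]
    have h7 : ∀ i ∈ S, ∀ j ∈ S, ‖t (Y i) * (starRingEnd ℂ) (t (Y j)) *
        ∑ k ∈ Ioc z X, ((1 / (k : ℝ) : ℝ) : ℂ) * (f i k * (starRingEnd ℂ) (f j k))‖ ≤
        (if i = j then ∑ k ∈ Ioc z X, (1 / (k : ℝ)) else 0) + D / z := by
      intro i hi j hj
      have h8 : ‖t (Y i) * (starRingEnd ℂ) (t (Y j))‖ ≤ 1 := by
        rw [norm_mul, RCLike.norm_conj]
        exact mul_le_one₀ (ht1 _) (norm_nonneg _) (ht1 _)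
      have h9 : ‖t (Y i) * (starRingEnd ℂ) (t (Y j)) *
          ∑ k ∈ Ioc z X, ((1 / (k : ℝ) : ℝ) : ℂ) * (f i k * (starRingEnd ℂ) (f j k))‖ ≤
          ‖∑ k ∈ Ioc z X, ((1 / (k : ℝ) : ℝ) : ℂ) * (f i k * (starRingEnd ℂ) (f j k))‖ := by
        rw [norm_mul]
        exact mul_le_of_le_one_left (norm_nonneg _) h8
      refine h9.trans ?_
      split_ifs with hij
      · subst hij
        have h10 : ‖∑ k ∈ Ioc z X, ((1 / (k : ℝ) : ℝ) : ℂ) * (f i k * (starRingEnd ℂ) (f i k))‖ ≤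
            ∑ k ∈ Ioc z X, (1 / (k : ℝ)) := by
          refine (norm_sum_le _ _).trans (Finset.sum_le_sum fun k _ => ?_)
          rw [norm_mul, norm_mul, RCLike.norm_conj, Complex.norm_real,
            Real.norm_of_nonneg (by positivity)]
          exact mul_le_of_le_one_right (by positivity)
            (mul_le_one₀ (hf i hi k) (norm_nonneg _) (hf i hi k))
        have : 0 ≤ D / z := by positivity
        linarith
      · rw [zero_add]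
        exact abel_inv _ z hz D (hoff i hi j hj hij) X
    refine (norm_sum_le _ _).trans ((Finset.sum_le_sum fun i hi =>
      (norm_sum_le _ _).trans (Finset.sum_le_sum fun j hj => h7 i hi j hj)).trans (le_of_eq ?_))
    have h8 : ∀ i ∈ S, ∑ j ∈ S, ((if i = j then ∑ k ∈ Ioc z X, (1 / (k : ℝ)) else 0) + D / z) =
        ∑ k ∈ Ioc z X, (1 / (k : ℝ)) + S.card * (D / z) := by
      intro i hi
      rw [Finset.sum_add_distrib, Finset.sum_ite_eq, if_pos hi, Finset.sum_const, nsmul_eq_mul]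
    rw [Finset.sum_congr rfl h8, Finset.sum_const, nsmul_eq_mul]
    ring
  calc (∑ i ∈ S, ‖Y i‖) ^ 2 ≤ (∑ k ∈ Ioc z X, ‖b k‖ * ‖g k‖) ^ 2 :=
        pow_le_pow_left₀ (Finset.sum_nonneg fun _ _ => norm_nonneg _) h2 2
    _ ≤ _ := h3
    _ ≤ _ := mul_le_mul_of_nonneg_left h5 (Finset.sum_nonneg fun k _ => by positivity)

end Vale.Agent.P026.H147
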