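import Vale.Agent.P026.H147.DS

/-!
# Expansion in characters
-/

set_option linter.all false

open Finset Complex DirichletCharacter Filter ArithmeticFunction
open scoped ArithmeticFunction.Moebius

namespace Vale.Agent.P026.H147

/-- Coefficients of the expansion of a function on `(ZMod q)ˣ` in characters. -/
noncomputable def cc {q : ℕ} [NeZero q] (h : ZMod q → ℂ) (χ : DirichletCharacter ℂ q) : ℂ :=
  (q.totient : ℂ)⁻¹ * ∑ a : (ZMod q)ˣ, χ ((a : ZMod q)⁻¹) * h a

lemma totient_ne {q : ℕ} [NeZero q] : (q.totient : ℂ) ≠ 0 := by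
  have : q.totient ≠ 0 := (Nat.totient_pos.2 (Nat.pos_of_ne_zero (NeZero.ne q))).ne'
  exact_mod_cast this

lemma char_expand {q : ℕ} [NeZero q] (h : ZMod q → ℂ) (m : ℕ) :
    (if m.Coprime q then h (m : ZMod q) else 0) =
      ∑ χ : DirichletCharacter ℂ q, cc h χ * χ (m : ZMod q) := by
  classical
  have h1 : ∑ χ : DirichletCharacter ℂ q, cc h χ * χ (m : ZMod q) =
      (q.totient : ℂ)⁻¹ * ∑ a : (ZMod q)ˣ, h a *
        ∑ χ : DirichletCharacter ℂ q, χ ((a : ZMod q)⁻¹) * χ (m : ZMod q) := by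
    simp_rw [cc, Finset.mul_sum, Finset.sum_mul]
    rw [Finset.sum_comm]
    refine Finset.sum_congr rfl fun a _ => Finset.sum_congr rfl fun χ _ => ?_
    ring
  rw [h1]
  simp_rw [sum_char_inv_mul_char_eq ℂ (Units.isUnit _)]
  split_ifs with hm
  · have hu : IsUnit (m : ZMod q) := (ZMod.isUnit_iff_coprime m q).2 hm
    have h2 : ∑ a : (ZMod q)ˣ, h (a : ZMod q) * (if (a : ZMod q) = (m : ZMod q) then (q.totient : ℂ) else 0) =
        h (m : ZMod q) * q.totient := by
      rw [Finset.sum_eq_single hu.unit]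
      · simp
      · intro b _ hb
        rw [if_neg, mul_zero]
        intro h3
        apply hb
        ext
        simpa using h3
      · intro h3
        exact absurd (Finset.mem_univ _) h3
    rw [h2]
    have := totient_ne (q := q)
    field_simp
  · rw [Finset.sum_eq_zero, mul_zero]
    intro a _
    rw [if_neg, mul_zero]
    intro h3
    apply hm
    rw [← ZMod.isUnit_iff_coprime, ← h3]
    exact a.isUnit

section Ext

variable {q r : ℕ} [NeZero q] [NeZero r]

/-- The index set of characters modulo `q * r` with a nontrivial component modulo `r`. -/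
noncomputable def PP (q r : ℕ) [NeZero q] [NeZero r] :
    Finset (DirichletCharacter ℂ q × DirichletCharacter ℂ r) := by
  classical exact Finset.univ.filter (fun x => x.2 ≠ 1)

lemma mem_PP {x : DirichletCharacter ℂ q × DirichletCharacter ℂ r} : x ∈ PP q r ↔ x.2 ≠ 1 := by
  unfold PP
  simp

/-- The product of the corresponding `L`-functions. -/
noncomputable def Pi (q r : ℕ) [NeZero q] [NeZero r] (s : ℂ) : ℂ :=
  ∏ x ∈ PP q r, LFunction (jn x.1 x.2) s

lemma differentiable_Pi (hqr : q.Coprime r) : Differentiable ℂ (Pi q r) := by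
  unfold Pi
  refine Differentiable.fun_finsetProd fun x hx => ?_
  exact differentiable_LFunction (jn_ne_one hqr _ (mem_PP.1 hx))

/-- `g` is bounded and `Pi * DS g` has an entire continuation. -/
def Ext (q r : ℕ) [NeZero q] [NeZero r] (g : ℕ → ℂ) : Prop :=
  Bdd g ∧ ∃ G : ℂ → ℂ, Differentiable ℂ G ∧ ∀ s : ℂ, 1 < s.re → Pi q r s * DS g s = G s

lemma Ext.smul {g : ℕ → ℂ} (hg : Ext q r g) (c : ℂ) : Ext q r (fun n => c * g n) := by
  obtain ⟨h1, G, h2, h3⟩ := hg
  refine ⟨h1.smul c, fun s => c * G s, h2.const_mul c, fun s hs => ?_⟩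
  simp only
  rw [DS_smul, ← h3 s hs]
  ring

lemma Ext.sum {ι : Type*} {S : Finset ι} {g : ι → ℕ → ℂ} (h : ∀ i ∈ S, Ext q r (g i)) :
    Ext q r (fun n => ∑ i ∈ S, g i n) := by
  choose! h1 G h2 h3 using h
  refine ⟨Bdd.sum h1, fun s => ∑ i ∈ S, G i s, Differentiable.fun_sum fun i hi => h2 i hi,
    fun s hs => ?_⟩
  rw [DS_sum h1 hs, Finset.mul_sum]
  exact Finset.sum_congr rfl fun i hi => h3 i hi s hs

lemma ext_char (hqr : q.Coprime r) (χ : DirichletCharacter ℂ q) {ψ : DirichletCharacter ℂ r}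
    (hψ : ψ ≠ 1) : Ext q r (fun n => χ (n : ZMod q) * ψ (n : ZMod r)) := by
  classical
  refine ⟨(bdd_char χ).mul (bdd_char ψ),
    fun s => ∏ x ∈ (PP q r).erase (χ, ψ), LFunction (jn x.1 x.2) s, ?_, fun s hs => ?_⟩
  · refine Differentiable.fun_finsetProd fun x hx => ?_
    exact differentiable_LFunction (jn_ne_one hqr _ (mem_PP.1 (Finset.mem_of_mem_erase hx)))
  · have h1 : Pi q r s = LFunction (jn χ ψ) s *
        ∏ x ∈ (PP q r).erase (χ, ψ), LFunction (jn x.1 x.2) s := by
      unfold Pi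
      rw [← Finset.mul_prod_erase (PP q r) _ (show (χ, ψ) ∈ PP q r from mem_PP.2 hψ)]
    have h2 := DS_char (jn χ ψ) hs
    simp_rw [jn_apply] at h2
    rw [h1]
    calc _ = (LFunction (jn χ ψ) s * DS (fun n => χ (n : ZMod q) * ψ (n : ZMod r)) s) *
        ∏ x ∈ (PP q r).erase (χ, ψ), LFunction (jn x.1 x.2) s := by ring
      _ = _ := by rw [h2, one_mul]

lemma ext_zmod (hqr : q.Coprime r) (h : ZMod q → ℂ) {ψ : DirichletCharacter ℂ r}
    (hψ : ψ ≠ 1) : Ext q r (fun n => h (n : ZMod q) * ψ (n : ZMod r)) := by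
  classical
  have hb : Bdd (fun n => h (n : ZMod q) * ψ (n : ZMod r)) := (bdd_zmod h).mul (bdd_char ψ)
  -- the components
  have h1 : ∀ d ∈ q.divisors, Ext q r
      (fun m => if m.Coprime q then h ((d * m : ℕ) : ZMod q) * ψ ((d * m : ℕ) : ZMod r) else 0) := by
    intro d _
    have h2 : (fun m : ℕ => if m.Coprime q then
        h ((d * m : ℕ) : ZMod q) * ψ ((d * m : ℕ) : ZMod r) else 0) =
        fun m : ℕ => ∑ χ : DirichletCharacter ℂ q,
          (cc (fun x => h ((d : ZMod q) * x)) χ * ψ (d : ZMod r)) * (χ (m : ZMod q) * ψ (m : ZMod r)) := by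
      ext m
      have h3 := char_expand (fun x => h ((d : ZMod q) * x)) m
      calc (if m.Coprime q then h ((d * m : ℕ) : ZMod q) * ψ ((d * m : ℕ) : ZMod r) else 0) =
          (if m.Coprime q then h ((d : ZMod q) * (m : ZMod q)) else 0) *
            (ψ (d : ZMod r) * ψ (m : ZMod r)) := by
            split_ifs
            · push_cast
              rw [map_mul]
            · simp
        _ = _ := by
            rw [h3, Finset.sum_mul]
            refine Finset.sum_congr rfl fun χ _ => ?_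
            ring
    rw [h2]
    exact Ext.sum fun χ _ => (ext_char hqr χ hψ).smul _
  choose! hB G hG1 hG2 using h1
  refine ⟨hb, fun s => ∑ d ∈ q.divisors, (μ d : ℂ) * (d : ℂ) ^ (-s) * G d s, ?_, fun s hs => ?_⟩
  · refine Differentiable.fun_sum fun d hd => ?_
    have hd0 : (d : ℂ) ≠ 0 := by
      have := (Nat.pos_of_mem_divisors hd).ne'
      exact_mod_cast this
    exact ((differentiable_id.neg.const_cpow (Or.inl hd0)).const_mul _).mul (hG1 d hd)
  · rw [DS_gcd (NeZero.ne q) hb hs, Finset.mul_sum]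
    refine Finset.sum_congr rfl fun d hd => ?_
    rw [← hG2 d hd s hs]
    ring

end Ext

end Vale.Agent.P026.H147
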