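import Vale.Agent.P026.H147.Char

/-!
# Products of characters modulo `q` and modulo `r`
-/

set_option linter.all false

open Finset Complex DirichletCharacter

namespace Vale.Agent.P026.H147

lemma cl_nat {M N : ℕ} (h : M ∣ N) (χ : DirichletCharacter ℂ M) {k : ℕ} (hk : k.Coprime N) :
    changeLevel h χ (k : ZMod N) = χ (k : ZMod M) := by
  have := changeLevel_eq_cast_of_dvd χ h (ZMod.unitOfCoprime k hk)
  rw [ZMod.coe_unitOfCoprime] at this
  rw [this]
  congr 1
  simp [ZMod.cast_natCast h]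

/-- The character modulo `q * r` which is the product of `χ` modulo `q` and `ψ` modulo `r`. -/
noncomputable def jn {q r : ℕ} (χ : DirichletCharacter ℂ q) (ψ : DirichletCharacter ℂ r) :
    DirichletCharacter ℂ (q * r) :=
  changeLevel (dvd_mul_right q r) χ * changeLevel (dvd_mul_left r q) ψ

lemma char_zero {N : ℕ} (χ : DirichletCharacter ℂ N) {k : ℕ} (hk : ¬ k.Coprime N) :
    χ (k : ZMod N) = 0 :=
  χ.map_nonunit (by rwa [ZMod.isUnit_iff_coprime])

lemma jn_apply {q r : ℕ} (χ : DirichletCharacter ℂ q) (ψ : DirichletCharacter ℂ r) (k : ℕ) :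
    jn χ ψ (k : ZMod (q * r)) = χ (k : ZMod q) * ψ (k : ZMod r) := by
  by_cases hk : k.Coprime (q * r)
  · rw [jn, MulChar.mul_apply, cl_nat _ _ hk, cl_nat _ _ hk]
  · rw [char_zero _ hk]
    rw [Nat.coprime_mul_iff_right, not_and_or] at hk
    rcases hk with h | h
    · rw [char_zero _ h, zero_mul]
    · rw [char_zero ψ h, mul_zero]

lemma jn_ne_one {q r : ℕ} [NeZero r] (hr : q.Coprime r) (χ : DirichletCharacter ℂ q)
    {ψ : DirichletCharacter ℂ r} (hψ : ψ ≠ 1) : jn χ ψ ≠ 1 := by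
  intro h
  apply hψ
  ext a
  rw [MulChar.one_apply_coe]
  -- choose an integer congruent to `a` modulo `r` and to `1` modulo `q`
  obtain ⟨k, hk1, hk2⟩ := Nat.chineseRemainder hr 1 (a : ZMod r).val
  have hka : (k : ZMod r) = a := by
    have := (ZMod.natCast_eq_natCast_iff k (a : ZMod r).val r).2 hk2
    rw [this, ZMod.natCast_zmod_val]
  have hkq : (k : ZMod q) = 1 := by
    have := (ZMod.natCast_eq_natCast_iff k 1 q).2 hk1
    simpa using this
  have h1 : IsUnit (k : ZMod (q * r)) := by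
    rw [ZMod.isUnit_iff_coprime, Nat.coprime_mul_iff_right, ← ZMod.isUnit_iff_coprime,
      ← ZMod.isUnit_iff_coprime, hka, hkq]
    exact ⟨isUnit_one, a.isUnit⟩
  have h2 := jn_apply χ ψ k
  rw [h, MulChar.one_apply h1, hka, hkq, map_one, one_mul] at h2
  rw [← h2]

lemma conj_char {N : ℕ} (χ : DirichletCharacter ℂ N) (a : ZMod N) :
    (starRingEnd ℂ) (χ a) = χ⁻¹ a := MulChar.star_apply' χ a

/-- Off-diagonal bound. -/
lemma off_diag {q r r' : ℕ} (hq : q ≠ 0) (hr : r ≠ 0) (hr' : r' ≠ 0)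
    (hqr : q.Coprime r) (hrr : r.Coprime r') (hqr' : q.Coprime r')
    (χ χ' : DirichletCharacter ℂ q) {ψ : DirichletCharacter ℂ r} (hψ : ψ ≠ 1)
    (ψ' : DirichletCharacter ℂ r') (m n : ℕ) :
    ‖∑ k ∈ Ioc m n, (χ (k : ZMod q) * ψ (k : ZMod r)) *
      (starRingEnd ℂ) (χ' (k : ZMod q) * ψ' (k : ZMod r'))‖ ≤ q * r * r' := by
  haveI : NeZero (q * r' * r) := ⟨by positivity⟩
  haveI : NeZero r := ⟨hr⟩
  set Ξ : DirichletCharacter ℂ (q * r' * r) := jn (jn (χ * χ'⁻¹) ψ'⁻¹) ψ with hΞ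
  have h1 : Ξ ≠ 1 := jn_ne_one (Nat.Coprime.mul_left hqr hrr.symm) _ hψ
  have h2 : ∀ k : ℕ, (χ (k : ZMod q) * ψ (k : ZMod r)) *
      (starRingEnd ℂ) (χ' (k : ZMod q) * ψ' (k : ZMod r')) = Ξ (k : ZMod (q * r' * r)) := by
    intro k
    rw [hΞ, jn_apply, jn_apply, map_mul, conj_char, conj_char, MulChar.mul_apply]
    ring
  simp_rw [h2]
  rcases le_or_gt n m with h | h
  · rw [Finset.Ioc_eq_empty (by omega)]
    simp
    positivity
  · have h3 := norm_sum_range_le h1 (m + 1) (n - m)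
    have h4 : ∑ k ∈ Ioc m n, Ξ (k : ZMod (q * r' * r)) =
        ∑ k ∈ range (n - m), Ξ ((m + 1 + k : ℕ) : ZMod (q * r' * r)) := by
      rw [Finset.range_eq_Ico, Finset.sum_Ico_add (fun k : ℕ => Ξ (k : ZMod (q * r' * r))) 0 (n - m) (m + 1)]
      congr 1
      ext k
      simp only [Finset.mem_Ioc, Finset.mem_Ico]
      omega
    rw [h4]
    refine h3.trans (le_of_eq ?_)
    push_cast
    ring

end Vale.Agent.P026.H147
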