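import Vale.Agent.P026.H147.Dual
import Vale.Agent.P026.H147.Off
import Vale.Agent.P026.H147.Detect

/-!
# Good primes
-/

set_option linter.all false

open Finset Complex DirichletCharacter Filter
open scoped Nat.Prime

namespace Vale.Agent.P026.H147

/-- The divisor bound. -/
theorem divisor_bound (ε : ℝ) (hε : 0 < ε) :
    ∃ C : ℝ, 1 ≤ C ∧ ∀ n : ℕ, n ≠ 0 → (n.divisors.card : ℝ) ≤ C * (n : ℝ) ^ ε := by
  have hlog2 : 0 < Real.log 2 := Real.log_pos (by norm_num)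
  set K : ℝ := 1 + 1 / (ε * Real.log 2) with hK
  have hK1 : 1 ≤ K := by
    have : 0 ≤ 1 / (ε * Real.log 2) := by positivity
    linarith
  set P0 : ℕ := ⌈(2 : ℝ) ^ (1 / ε)⌉₊ with hP0
  refine ⟨K ^ P0, one_le_pow₀ hK1, ?_⟩
  intro n hn
  rw [Nat.card_divisors hn]
  have hn' : (n : ℝ) ^ ε = ∏ p ∈ n.primeFactors, ((p : ℝ) ^ ε) ^ (n.factorization p) := by
    conv_lhs => rw [← Nat.prod_factorization_pow_eq_self hn]
    rw [Nat.prod_factorization_eq_prod_primeFactors]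
    push_cast
    rw [← Real.finsetProd_rpow _ _ (fun p _ => by positivity)]
    refine prod_congr rfl fun p _ => ?_
    rw [← Real.rpow_natCast, ← Real.rpow_natCast, ← Real.rpow_mul (by positivity),
      ← Real.rpow_mul (by positivity), mul_comm]
  have hfac : ∀ p ∈ n.primeFactors, ((n.factorization p : ℝ) + 1) ≤
      (if p < P0 then K else 1) * ((p : ℝ) ^ ε) ^ (n.factorization p) := by
    intro p hp
    have hpp : p.Prime := Nat.prime_of_mem_primeFactors hp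
    set a := n.factorization p with ha
    have hp2 : (2 : ℝ) ≤ p := by exact_mod_cast hpp.two_le
    split_ifs with h
    · have h1 : 1 + ε * Real.log 2 * a ≤ ((p : ℝ) ^ ε) ^ a := by
        have h2 : ((2 : ℝ) ^ ε) ^ a ≤ ((p : ℝ) ^ ε) ^ a :=
          pow_le_pow_left₀ (by positivity) (Real.rpow_le_rpow (by norm_num) hp2 hε.le) _
        refine le_trans ?_ h2
        rw [Real.rpow_def_of_pos (by norm_num : (0 : ℝ) < 2), ← Real.exp_nat_mul]
        have := Real.add_one_le_exp ((a : ℝ) * (Real.log 2 * ε))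
        linarith
      have h3 : K * (1 + ε * Real.log 2 * a) = K + K * (ε * Real.log 2) * a := by ring
      have h4 : K * (ε * Real.log 2) = ε * Real.log 2 + 1 := by
        rw [hK]; field_simp
      calc (a : ℝ) + 1 ≤ K * (1 + ε * Real.log 2 * a) := by
            rw [h3, h4]
            have : 0 ≤ ε * Real.log 2 * (a : ℝ) := by positivity
            nlinarith
        _ ≤ K * ((p : ℝ) ^ ε) ^ a := mul_le_mul_of_nonneg_left h1 (by linarith)
    · rw [one_mul]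
      have h1 : (2 : ℝ) ≤ (p : ℝ) ^ ε := by
        have h2 : (2 : ℝ) ^ (1 / ε) ≤ p := by
          refine (Nat.le_ceil _).trans ?_
          exact_mod_cast not_lt.1 h
        calc (2 : ℝ) = ((2 : ℝ) ^ (1 / ε)) ^ ε := by
              rw [← Real.rpow_mul (by norm_num), one_div, inv_mul_cancel₀ hε.ne', Real.rpow_one]
          _ ≤ (p : ℝ) ^ ε := Real.rpow_le_rpow (by positivity) h2 hε.le
      have h3 : a + 1 ≤ 2 ^ a := Nat.lt_two_pow_self
      calc (a : ℝ) + 1 ≤ (2 : ℝ) ^ a := by exact_mod_cast h3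
        _ ≤ _ := pow_le_pow_left₀ (by norm_num) h1 _
  push_cast
  calc ∏ p ∈ n.primeFactors, ((n.factorization p : ℝ) + 1)
      ≤ ∏ p ∈ n.primeFactors, ((if p < P0 then K else 1) * ((p : ℝ) ^ ε) ^ (n.factorization p)) :=
        prod_le_prod (fun p _ => by positivity) hfac
    _ = (∏ p ∈ n.primeFactors, (if p < P0 then K else 1)) * (n : ℝ) ^ ε := by
        rw [prod_mul_distrib, ← hn']
    _ ≤ K ^ P0 * (n : ℝ) ^ ε := by
        refine mul_le_mul_of_nonneg_right ?_ (by positivity)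
        rw [prod_ite, prod_const, prod_const_one, mul_one]
        refine pow_le_pow_right₀ hK1 ?_
        calc (n.primeFactors.filter fun p => p < P0).card ≤ (range P0).card := by
              refine card_le_card fun p hp => ?_
              exact mem_range.2 (mem_filter.1 hp).2
          _ = P0 := card_range _

/-- There are many primes. -/
lemma primes_many (C A : ℝ) :
    ∀ᶠ R : ℕ in atTop, C * (R : ℝ) ^ (3 / 4 : ℝ) + A < (π R : ℝ) := by
  have t8 : Tendsto (fun R : ℕ => (R : ℝ) ^ (1 / 8 : ℝ)) atTop atTop :=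
    (tendsto_rpow_atTop (by norm_num)).comp tendsto_natCast_atTop_atTop
  have e1 := t8.eventually_ge_atTop (32 * (|C| + |A|) + 1000)
  filter_upwards [e1, eventually_ge_atTop 16] with R h1 h16
  have hR16 : (16 : ℝ) ≤ R := by exact_mod_cast h16
  have hR0 : (0 : ℝ) < R := by linarith
  have hlog : 0 < Real.log R := Real.log_pos (by linarith)
  have hlog8 : Real.log R ≤ 8 * (R : ℝ) ^ (1 / 8 : ℝ) := by
    have := Real.log_le_rpow_div hR0.le (by norm_num : (0 : ℝ) < 1 / 8)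
    linarith
  have hlog1 : Real.log ((R : ℝ) + 1) ≤ (R : ℝ) * (1 / 4) := by
    have h2 : Real.log ((R : ℝ) + 1) ≤ ((R : ℝ) + 1) ^ (1 / 2 : ℝ) / (1 / 2) :=
      Real.log_le_rpow_div (by linarith) (by norm_num)
    have h3 : ((R : ℝ) + 1) ^ (1 / 2 : ℝ) ≤ R * (1 / 8) := by
      rw [← Real.sqrt_eq_rpow, Real.sqrt_le_left (by positivity)]
      have h4 : (1000 : ℝ) ≤ (R : ℝ) ^ (1 / 8 : ℝ) := by
        have := abs_nonneg C
        have := abs_nonneg A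
        linarith
      have h5 : (R : ℝ) ^ (1 / 8 : ℝ) ≤ (R : ℝ) ^ (1 : ℝ) :=
        Real.rpow_le_rpow_of_exponent_le (by linarith) (by norm_num)
      rw [Real.rpow_one] at h5
      nlinarith
    linarith
  have hpi := Chebyshev.pi_ge R
  have hl2 : (1 / 2 : ℝ) ≤ Real.log 2 := by
    have := Real.log_two_gt_d9
    linarith
  have h2 : (R : ℝ) / 4 ≤ (π R : ℝ) * Real.log R := by
    rw [div_le_iff₀ hlog] at hpi
    nlinarith
  have h3 : (R : ℝ) / 32 ≤ (π R : ℝ) * (R : ℝ) ^ (1 / 8 : ℝ) := by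
    have : (π R : ℝ) * Real.log R ≤ (π R : ℝ) * (8 * (R : ℝ) ^ (1 / 8 : ℝ)) :=
      mul_le_mul_of_nonneg_left hlog8 (by positivity)
    linarith
  have hx : 0 < (R : ℝ) ^ (1 / 8 : ℝ) := Real.rpow_pos_of_pos hR0 _
  set x := (R : ℝ) ^ (1 / 8 : ℝ) with hxdef
  have hR : (R : ℝ) = x ^ 8 := by
    rw [hxdef, ← Real.rpow_natCast, ← Real.rpow_mul hR0.le]
    norm_num
  have hR34 : (R : ℝ) ^ (3 / 4 : ℝ) = x ^ 6 := by
    rw [hxdef, ← Real.rpow_natCast, ← Real.rpow_mul hR0.le]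
    norm_num
  rw [hR34]
  rw [hR] at h3
  have h4 : x ^ 7 / 32 ≤ (π R : ℝ) := by
    by_contra hcon
    push Not at hcon
    have : (π R : ℝ) * x < x ^ 7 / 32 * x := mul_lt_mul_of_pos_right hcon hx
    have h5 : x ^ 7 / 32 * x = x ^ 8 / 32 := by ring
    linarith
  refine lt_of_lt_of_le ?_ h4
  have h5 : C ≤ |C| := le_abs_self C
  have h6 : A ≤ |A| := le_abs_self A
  have h7 : 0 ≤ |C| := abs_nonneg C
  have h8 : 0 ≤ |A| := abs_nonneg A
  have hx1 : 1 ≤ x ^ 6 := one_le_pow₀ (by linarith)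
  have hx6 : 0 < x ^ 6 := by positivity
  calc C * x ^ 6 + A ≤ |C| * x ^ 6 + |A| * x ^ 6 := by nlinarith
    _ < (32 * (|C| + |A|) + 1000) * x ^ 6 / 32 := by nlinarith
    _ ≤ x * x ^ 6 / 32 := by gcongr
    _ = x ^ 7 / 32 := by ring

/-- `r` is bad for `ρ` if some character modulo `q * r`, with a nontrivial component modulo `r`,
has an `L`-function which vanishes at `ρ`. -/
def Bad (q r : ℕ) (ρ : ℂ) : Prop :=
  ∃ (χ : DirichletCharacter ℂ q) (ψ : DirichletCharacter ℂ r), ψ ≠ 1 ∧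
    ∃ _ : NeZero (q * r), LFunction (jn χ ψ) ρ = 0

set_option maxHeartbeats 1000000 in
open Classical in
/-- Few primes are bad: count up to `R`, for `R` large. -/
theorem few_bad (q : ℕ) (hq : q ≠ 0) (ρ : ℂ) (hρ : 19 / 20 ≤ ρ.re) :
    ∃ C : ℝ, ∀ᶠ R : ℕ in atTop,
      (((range (R + 1)).filter (fun r => r.Prime ∧ ¬ r ∣ q ∧ Bad q r ρ)).card : ℝ) ≤
        C * (R : ℝ) ^ (3 / 4 : ℝ) := by
  obtain ⟨Cd, hCd1, hCd⟩ := divisor_bound (1 / 200) (by norm_num)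
  have hβ0 : 0 < ρ.re := by linarith
  have hqR : (1 : ℝ) ≤ q := by exact_mod_cast Nat.one_le_iff_ne_zero.2 hq
  set E : ℝ := 8 * q * ‖ρ‖ / ρ.re with hE
  have hE0 : 0 ≤ E := by positivity
  refine ⟨4 * Cd ^ 2 * 400 ^ 2 * q, ?_⟩
  have t8 : Tendsto (fun R : ℕ => (R : ℝ) ^ (7 / 20 : ℝ)) atTop atTop :=
    (tendsto_rpow_atTop (by norm_num)).comp tendsto_natCast_atTop_atTop
  filter_upwards [t8.eventually_ge_atTop E, eventually_ge_atTop 2] with R hR1 hR2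
  have hR2' : (2 : ℝ) ≤ R := by exact_mod_cast hR2
  have hR0 : (0 : ℝ) < R := by linarith
  set S : Finset ℕ := (range (R + 1)).filter (fun r => r.Prime ∧ ¬ r ∣ q ∧ Bad q r ρ) with hS
  have memS : ∀ r ∈ S, r ≤ R ∧ r.Prime ∧ q.Coprime r ∧ Bad q r ρ := by
    intro r hr
    rw [hS, Finset.mem_filter, Finset.mem_range] at hr
    exact ⟨by omega, hr.2.1, ((Nat.Prime.coprime_iff_not_dvd hr.2.1).2 hr.2.2.1).symm, hr.2.2.2⟩
  have hbad : ∀ r : ℕ, r ∈ S → ∃ (χ : DirichletCharacter ℂ q) (ψ : DirichletCharacter ℂ r),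
      ψ ≠ 1 ∧ ∃ _ : NeZero (q * r), LFunction (jn χ ψ) ρ = 0 := fun r hr => (memS r hr).2.2.2
  choose! χ ψ h1 h2 using hbad
  set z : ℕ := q * R ^ 3 with hz
  have hz1 : 1 ≤ z := Nat.mul_pos (Nat.pos_of_ne_zero hq) (by positivity)
  have hzR : (z : ℝ) = q * (R : ℝ) ^ 3 := by rw [hz]; push_cast; ring
  have hz0 : (0 : ℝ) < z := by exact_mod_cast hz1
  have hz1' : (1 : ℝ) ≤ z := by exact_mod_cast hz1
  set f : ℕ → ℕ → ℂ := fun r k => χ r (k : ZMod q) * ψ r (k : ZMod r) with hf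
  set b : ℕ → ℂ := fun k => (ac z k : ℂ) * (k : ℂ) ^ (-ρ) with hb
  have hdet : ∀ r ∈ S, 1 / 2 ≤ ‖∑ k ∈ Ioc z (z ^ 2), b k * f r k‖ := by
    intro r hr
    obtain ⟨hrR, hrp, hrq, _⟩ := memS r hr
    haveI : NeZero r := ⟨hrp.ne_zero⟩
    obtain ⟨inst, hL⟩ := h2 r hr
    haveI := inst
    have hrR' : (r : ℝ) ≤ R := by exact_mod_cast hrR
    have hbig : 8 * ((q * r : ℕ) : ℝ) * ‖ρ‖ / ρ.re * (z : ℝ) ^ (-ρ.re) * √(z : ℝ) ≤ 1 := by
      have e1 : (z : ℝ) ^ (-ρ.re) * √(z : ℝ) ≤ (R : ℝ) ^ (-(27 / 20) : ℝ) := by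
        rw [Real.sqrt_eq_rpow, ← Real.rpow_add hz0]
        calc (z : ℝ) ^ (-ρ.re + 1 / 2) ≤ (z : ℝ) ^ (-(9 / 20) : ℝ) :=
              Real.rpow_le_rpow_of_exponent_le hz1' (by linarith)
          _ ≤ ((R : ℝ) ^ 3) ^ (-(9 / 20) : ℝ) := by
              apply Real.rpow_le_rpow_of_nonpos (by positivity)
              · rw [hzR]
                have : (0 : ℝ) ≤ (R : ℝ) ^ 3 := by positivity
                nlinarith
              · norm_num
          _ = (R : ℝ) ^ (-(27 / 20) : ℝ) := by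
              rw [← Real.rpow_natCast, ← Real.rpow_mul hR0.le]
              norm_num
      have e2 : 8 * ((q * r : ℕ) : ℝ) * ‖ρ‖ / ρ.re ≤ E * R := by
        rw [hE]
        push_cast
        calc 8 * ((q : ℝ) * r) * ‖ρ‖ / ρ.re ≤ 8 * ((q : ℝ) * R) * ‖ρ‖ / ρ.re := by gcongr
          _ = 8 * q * ‖ρ‖ / ρ.re * R := by ring
      have e0 : 0 ≤ 8 * ((q * r : ℕ) : ℝ) * ‖ρ‖ / ρ.re := by positivity
      calc 8 * ((q * r : ℕ) : ℝ) * ‖ρ‖ / ρ.re * (z : ℝ) ^ (-ρ.re) * √(z : ℝ) =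
          (8 * ((q * r : ℕ) : ℝ) * ‖ρ‖ / ρ.re) * ((z : ℝ) ^ (-ρ.re) * √(z : ℝ)) := by ring
        _ ≤ (E * R) * (R : ℝ) ^ (-(27 / 20) : ℝ) := by gcongr
        _ ≤ ((R : ℝ) ^ (7 / 20 : ℝ) * R) * (R : ℝ) ^ (-(27 / 20) : ℝ) := by gcongr
        _ = 1 := by
            have e3 : (R : ℝ) ^ (7 / 20 : ℝ) * R = (R : ℝ) ^ (27 / 20 : ℝ) := by
              conv_lhs => rw [← Real.rpow_one (R : ℝ)]
              rw [Real.rpow_one, ← Real.rpow_add_one hR0.ne']
              norm_num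
            rw [e3, ← Real.rpow_add hR0]
            norm_num
    have h3 := detect (jn_ne_one hrq (χ r) (h1 r hr)) (by linarith) hL hz1 hbig
    have e1 : ∀ k : ℕ, b k * f r k = ((ac z k : ℂ) * (k : ℂ) ^ (-ρ)) *
        jn (χ r) (ψ r) (k : ZMod (q * r)) := by
      intro k
      rw [jn_apply]
    rw [Finset.sum_congr rfl fun k _ => e1 k]
    exact h3
  have hoff : ∀ i ∈ S, ∀ j ∈ S, i ≠ j → ∀ n,
      ‖∑ k ∈ Ioc z n, f i k * (starRingEnd ℂ) (f j k)‖ ≤ q * (R : ℝ) * R := by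
    intro i hi j hj hij n
    obtain ⟨hiR, hip, hiq, _⟩ := memS i hi
    obtain ⟨hjR, hjp, hjq, _⟩ := memS j hj
    have hiR' : (i : ℝ) ≤ R := by exact_mod_cast hiR
    have hjR' : (j : ℝ) ≤ R := by exact_mod_cast hjR
    refine (off_diag hq hip.ne_zero hjp.ne_zero hiq ((Nat.coprime_primes hip hjp).2 hij) hjq
      (χ i) (χ j) (h1 i hi) (ψ j) z n).trans ?_
    gcongr
  have hfb : ∀ i ∈ S, ∀ k, ‖f i k‖ ≤ 1 := by
    intro i _ k
    rw [hf]
    simp only [norm_mul]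
    exact mul_le_one₀ (norm_le_one _ _) (norm_nonneg _) (norm_le_one _ _)
  have hdual := duality S f z (z ^ 2) hz1 b (q * (R : ℝ) * R) (by positivity) hfb hoff
  set K : ℝ := (S.card : ℝ) with hK
  have hKR : K ≤ 2 * R := by
    have e1 : S.card ≤ R + 1 := by
      calc S.card ≤ (range (R + 1)).card := Finset.card_filter_le _ _
        _ = R + 1 := Finset.card_range _
    have e2 : (S.card : ℝ) ≤ R + 1 := by exact_mod_cast e1
    rw [hK]
    linarith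
  have hK0 : 0 ≤ K := by positivity
  have hlow : (K / 2) ^ 2 ≤ (∑ i ∈ S, ‖∑ k ∈ Ioc z (z ^ 2), b k * f i k‖) ^ 2 := by
    apply pow_le_pow_left₀ (by positivity)
    calc K / 2 = ∑ i ∈ S, (1 / 2 : ℝ) := by rw [Finset.sum_const, nsmul_eq_mul, hK]; ring
      _ ≤ _ := Finset.sum_le_sum hdet
  -- the harmonic sum
  set H : ℝ := ∑ k ∈ Ioc z (z ^ 2), (1 / (k : ℝ)) with hH
  have hH0 : 0 ≤ H := Finset.sum_nonneg fun k _ => by positivity
  have hHle : H ≤ 400 * (z : ℝ) ^ (1 / 100 : ℝ) - 2 := by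
    have e1 : H ≤ 1 + Real.log ((z ^ 2 : ℕ) : ℝ) := by
      have e2 : ((harmonic (z ^ 2) : ℚ) : ℝ) ≤ 1 + Real.log ((z ^ 2 : ℕ) : ℝ) :=
        harmonic_le_one_add_log _
      refine le_trans ?_ e2
      rw [harmonic_eq_sum_Icc]
      push_cast
      rw [hH]
      simp_rw [one_div]
      refine Finset.sum_le_sum_of_subset_of_nonneg ?_ fun k _ _ => by positivity
      intro k hk
      rw [Finset.mem_Ioc] at hk
      rw [Finset.mem_Icc]
      omega
    have e3 : Real.log ((z ^ 2 : ℕ) : ℝ) = 2 * Real.log z := by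
      push_cast
      rw [Real.log_pow]
      norm_num
    have e4 : Real.log z ≤ 100 * (z : ℝ) ^ (1 / 100 : ℝ) := by
      have := Real.log_le_rpow_div hz0.le (by norm_num : (0 : ℝ) < 1 / 100)
      linarith
    have e5 : 1 ≤ (z : ℝ) ^ (1 / 100 : ℝ) := Real.one_le_rpow hz1' (by norm_num)
    linarith
  have hB : ∑ k ∈ Ioc z (z ^ 2), ‖b k‖ ^ 2 * k ≤ Cd ^ 2 * (z : ℝ) ^ (11 / 50 : ℝ) * H := by
    rw [hH, Finset.mul_sum]
    refine Finset.sum_le_sum fun k hk => ?_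
    rw [Finset.mem_Ioc] at hk
    have hk0 : 0 < k := by omega
    have hk0' : (0 : ℝ) < k := by exact_mod_cast hk0
    have hk1' : (1 : ℝ) ≤ k := by exact_mod_cast hk0
    have hkz : (k : ℝ) ≤ (z : ℝ) ^ 2 := by exact_mod_cast hk.2
    have e1 : ‖b k‖ ≤ Cd * (k : ℝ) ^ (1 / 200 : ℝ) * (k : ℝ) ^ (-(19 / 20) : ℝ) := by
      rw [hb]
      simp only [norm_mul]
      have e2 : ‖((ac z k : ℤ) : ℂ)‖ ≤ Cd * (k : ℝ) ^ (1 / 200 : ℝ) := by
        rw [Complex.norm_intCast]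
        exact (abs_ac_le z k).trans (hCd k hk0.ne')
      have e3 : ‖(k : ℂ) ^ (-ρ)‖ = (k : ℝ) ^ (-ρ.re) := by
        have := Complex.norm_cpow_eq_rpow_re_of_pos hk0' (-ρ)
        simpa using this
      have e4 : (k : ℝ) ^ (-ρ.re) ≤ (k : ℝ) ^ (-(19 / 20) : ℝ) :=
        Real.rpow_le_rpow_of_exponent_le hk1' (by linarith)
      rw [e3]
      exact mul_le_mul e2 e4 (Real.rpow_nonneg hk0'.le _) (by positivity)
    have e2 : ‖b k‖ ^ 2 * k ≤ Cd ^ 2 * (k : ℝ) ^ (11 / 100 : ℝ) * (1 / (k : ℝ)) := by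
      calc ‖b k‖ ^ 2 * k ≤
          (Cd * (k : ℝ) ^ (1 / 200 : ℝ) * (k : ℝ) ^ (-(19 / 20) : ℝ)) ^ 2 * k := by gcongr
        _ = Cd ^ 2 * (((k : ℝ) ^ (1 / 200 : ℝ)) ^ 2 * ((k : ℝ) ^ (-(19 / 20) : ℝ)) ^ 2 * k) := by
            ring
        _ = Cd ^ 2 * ((k : ℝ) ^ (11 / 100 : ℝ) * (1 / (k : ℝ))) := by
            have a1 : ((k : ℝ) ^ (1 / 200 : ℝ)) ^ 2 = (k : ℝ) ^ (1 / 100 : ℝ) := by
              rw [← Real.rpow_natCast, ← Real.rpow_mul hk0'.le]; norm_num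
            have a2 : ((k : ℝ) ^ (-(19 / 20) : ℝ)) ^ 2 = (k : ℝ) ^ (-(19 / 10) : ℝ) := by
              rw [← Real.rpow_natCast, ← Real.rpow_mul hk0'.le]; norm_num
            have a3 : (1 / (k : ℝ)) = (k : ℝ) ^ (-1 : ℝ) := by
              rw [Real.rpow_neg_one, one_div]
            rw [a1, a2, a3, ← Real.rpow_add hk0', ← Real.rpow_add_one hk0'.ne',
              ← Real.rpow_add hk0']
            norm_num
        _ = _ := by ring
    refine e2.trans ?_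
    have e3 : (k : ℝ) ^ (11 / 100 : ℝ) ≤ (z : ℝ) ^ (11 / 50 : ℝ) := by
      calc (k : ℝ) ^ (11 / 100 : ℝ) ≤ ((z : ℝ) ^ 2) ^ (11 / 100 : ℝ) :=
            Real.rpow_le_rpow hk0'.le hkz (by norm_num)
        _ = (z : ℝ) ^ (11 / 50 : ℝ) := by
            rw [← Real.rpow_natCast, ← Real.rpow_mul hz0.le]
            norm_num
    gcongr
  -- the second factor
  have hsec : K * H + K ^ 2 * (q * (R : ℝ) * R / z) ≤ K * (H + 2) := by
    have e1 : q * (R : ℝ) * R / z = 1 / R := by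
      rw [hzR]
      field_simp
    rw [e1]
    have e2 : K ^ 2 * (1 / (R : ℝ)) ≤ K * 2 := by
      have e3 : K ^ 2 * (1 / (R : ℝ)) = K * (K / R) := by ring
      rw [e3]
      have e4 : K / R ≤ 2 := by
        rw [div_le_iff₀ hR0]
        exact hKR
      exact mul_le_mul_of_nonneg_left e4 hK0
    linarith only [e2]
  by_cases hKz : K = 0
  · rw [hKz]
    positivity
  have hKpos : 0 < K := lt_of_le_of_ne hK0 (Ne.symm hKz)
  have h4 : (K / 2) ^ 2 ≤ (Cd ^ 2 * (z : ℝ) ^ (11 / 50 : ℝ) * H) * (K * (H + 2)) := by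
    refine hlow.trans (hdual.trans ?_)
    exact mul_le_mul hB hsec (by positivity) (by positivity)
  have h5 : K ≤ 4 * Cd ^ 2 * (z : ℝ) ^ (11 / 50 : ℝ) * (H * (H + 2)) := by
    have : (K / 2) ^ 2 = K * (K / 4) := by ring
    rw [this] at h4
    have h6 : K / 4 ≤ Cd ^ 2 * (z : ℝ) ^ (11 / 50 : ℝ) * (H * (H + 2)) := by
      by_contra hcon
      push Not at hcon
      have := mul_lt_mul_of_pos_left hcon hKpos
      nlinarith
    linarith
  have h6 : H * (H + 2) ≤ (400 * (z : ℝ) ^ (1 / 100 : ℝ)) ^ 2 := by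
    have : 0 ≤ 400 * (z : ℝ) ^ (1 / 100 : ℝ) := by positivity
    nlinarith
  have h7 : ((400 : ℝ) * (z : ℝ) ^ (1 / 100 : ℝ)) ^ 2 = 400 ^ 2 * (z : ℝ) ^ (1 / 50 : ℝ) := by
    rw [mul_pow, ← Real.rpow_natCast ((z : ℝ) ^ (1 / 100 : ℝ)), ← Real.rpow_mul hz0.le]
    norm_num
  have h8 : (z : ℝ) ^ (11 / 50 : ℝ) * (z : ℝ) ^ (1 / 50 : ℝ) ≤ q * (R : ℝ) ^ (3 / 4 : ℝ) := by
    rw [← Real.rpow_add hz0]
    have e1 : (11 / 50 + 1 / 50 : ℝ) = 6 / 25 := by norm_num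
    rw [e1, hzR, Real.mul_rpow (by positivity) (by positivity)]
    have e2 : (q : ℝ) ^ (6 / 25 : ℝ) ≤ q := by
      calc (q : ℝ) ^ (6 / 25 : ℝ) ≤ (q : ℝ) ^ (1 : ℝ) :=
            Real.rpow_le_rpow_of_exponent_le hqR (by norm_num)
        _ = q := Real.rpow_one _
    have e3 : ((R : ℝ) ^ 3) ^ (6 / 25 : ℝ) ≤ (R : ℝ) ^ (3 / 4 : ℝ) := by
      rw [← Real.rpow_natCast, ← Real.rpow_mul hR0.le]
      exact Real.rpow_le_rpow_of_exponent_le (by linarith) (by norm_num)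
    gcongr
  calc K ≤ 4 * Cd ^ 2 * (z : ℝ) ^ (11 / 50 : ℝ) * (H * (H + 2)) := h5
    _ ≤ 4 * Cd ^ 2 * (z : ℝ) ^ (11 / 50 : ℝ) * (400 ^ 2 * (z : ℝ) ^ (1 / 50 : ℝ)) := by
        rw [← h7]
        gcongr
    _ = 4 * Cd ^ 2 * 400 ^ 2 * ((z : ℝ) ^ (11 / 50 : ℝ) * (z : ℝ) ^ (1 / 50 : ℝ)) := by ring
    _ ≤ 4 * Cd ^ 2 * 400 ^ 2 * (q * (R : ℝ) ^ (3 / 4 : ℝ)) := by gcongr
    _ = _ := by ring

/-- **Good prime lemma.** There are arbitrarily large primes `r`, not dividing `q`, such that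
no character modulo `q * r` with a nontrivial component modulo `r` has an `L`-function
vanishing at `ρ`. -/
theorem good_prime (q : ℕ) (hq : q ≠ 0) (ρ : ℂ) (hρ : 19 / 20 ≤ ρ.re) (R₀ : ℕ) :
    ∃ r : ℕ, R₀ ≤ r ∧ r.Prime ∧ ¬ r ∣ q ∧ ¬ Bad q r ρ := by
  classical
  by_contra hcon
  push Not at hcon
  obtain ⟨C, hC⟩ := few_bad q hq ρ hρ
  obtain ⟨R, h1, h2, h3⟩ := (hC.and ((primes_many C (R₀ + q + 1)).and
    (eventually_ge_atTop (max R₀ q)))).exists
  have h4 : (range (R + 1)).filter Nat.Prime ⊆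
      ((range (R + 1)).filter (fun r => r.Prime ∧ ¬ r ∣ q ∧ Bad q r ρ)) ∪
        (range (R₀ + q + 1)) := by
    intro r hr
    rw [Finset.mem_filter, Finset.mem_range] at hr
    rw [Finset.mem_union, Finset.mem_filter, Finset.mem_range, Finset.mem_range]
    by_cases h5 : R₀ ≤ r
    · by_cases h6 : r ∣ q
      · right
        have := Nat.le_of_dvd (Nat.pos_of_ne_zero hq) h6
        omega
      · left
        exact ⟨hr.1, hr.2, h6, hcon r h5 hr.2 h6⟩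
    · right
      omega
  have h5 : π R ≤ ((range (R + 1)).filter (fun r => r.Prime ∧ ¬ r ∣ q ∧ Bad q r ρ)).card +
      (R₀ + q + 1) := by
    calc π R = ((range (R + 1)).filter Nat.Prime).card := by
          rw [Nat.primeCounting, Nat.primeCounting', Nat.count_eq_card_filter_range]
      _ ≤ _ := Finset.card_le_card h4
      _ ≤ _ := Finset.card_union_le _ _
      _ = _ := by rw [Finset.card_range]
  have h6 : (π R : ℝ) ≤ (((range (R + 1)).filter
      (fun r => r.Prime ∧ ¬ r ∣ q ∧ Bad q r ρ)).card : ℝ) + (R₀ + q + 1) := by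
    exact_mod_cast h5
  linarith

end Vale.Agent.P026.H147
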