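import Vale.Agent.P026.H147.Expand
import Vale.Agent.P026.H147.Defs

/-!
# The local to global principle
-/

set_option linter.all false

open Finset Complex DirichletCharacter Filter ArithmeticFunction
open scoped ArithmeticFunction.Moebius

namespace Vale.Agent.P026.H147

/-- `e(n α) = exp (2 π i n α)`. -/
noncomputable def ex (α : ℝ) (n : ℕ) : ℂ :=
  Complex.exp (2 * Real.pi * Complex.I * n * α)

lemma norm_ex (α : ℝ) (n : ℕ) : ‖ex α n‖ = 1 := by
  unfold ex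
  rw [show (2 * Real.pi * Complex.I * n * α : ℂ) = ((2 * Real.pi * n * α : ℝ) : ℂ) * Complex.I by
    push_cast; ring]
  exact Complex.norm_exp_ofReal_mul_I _

lemma bdd_ex (α : ℝ) : Bdd (ex α) := ⟨1, fun n => (norm_ex α n).le⟩

lemma ex_rat {q r : ℕ} [NeZero q] [NeZero r] (c b : ℤ) (n : ℕ) :
    ex ((c : ℝ) / q + (b : ℝ) / r) n =
      ZMod.stdAddChar ((c : ZMod q) * (n : ZMod q)) * ZMod.stdAddChar ((b : ZMod r) * (n : ZMod r)) := by
  have h1 : ((c : ZMod q) * (n : ZMod q)) = ((c * n : ℤ) : ZMod q) := by push_cast; ring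
  have h2 : ((b : ZMod r) * (n : ZMod r)) = ((b * n : ℤ) : ZMod r) := by push_cast; ring
  rw [h1, h2, ZMod.stdAddChar_coe, ZMod.stdAddChar_coe, ← Complex.exp_add, ex]
  congr 1
  push_cast
  ring

lemma sum_units {r : ℕ} [Fact r.Prime] (f : ZMod r → ℂ) :
    ∑ x : ZMod r, f x = f 0 + ∑ u : (ZMod r)ˣ, f u := by
  classical
  rw [Fintype.sum_eq_add_sum_subtype_ne f 0]
  congr 1
  exact (Fintype.sum_equiv unitsEquivNeZero _ _ (fun u => rfl)).symm

lemma cc_one {r : ℕ} [Fact r.Prime] [NeZero r] {b : ZMod r} (hb : b ≠ 0) :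
    cc (fun x => ZMod.stdAddChar (b * x)) (1 : DirichletCharacter ℂ r) = -((r : ℂ) - 1)⁻¹ := by
  have hr : r.Prime := Fact.out
  unfold cc
  rw [Nat.totient_prime hr]
  have h1 : ∑ a : (ZMod r)ˣ, (1 : DirichletCharacter ℂ r) ((a : ZMod r)⁻¹) *
      ZMod.stdAddChar (b * (a : ZMod r)) = -1 := by
    have h2 : ∀ a : (ZMod r)ˣ, (1 : DirichletCharacter ℂ r) ((a : ZMod r)⁻¹) = 1 := by
      intro a
      apply MulChar.one_apply
      rw [ZMod.inv_coe_unit]
      exact Units.isUnit _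
    simp_rw [h2, one_mul]
    have h3 := sum_units (fun x : ZMod r => (ZMod.stdAddChar (b * x) : ℂ))
    have h4 : ∑ x : ZMod r, (ZMod.stdAddChar (b * x) : ℂ) = 0 := by
      have := AddChar.sum_mulShift (R := ZMod r) (R' := ℂ) (ψ := ZMod.stdAddChar) b
        (ZMod.isPrimitive_stdAddChar r)
      rw [if_neg hb] at this
      simp_rw [mul_comm b]
      exact_mod_cast this
    rw [h4] at h3
    simp only [mul_zero, AddChar.map_zero_eq_one] at h3
    linear_combination -h3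
  rw [h1]
  have h5 : ((r - 1 : ℕ) : ℂ) = (r : ℂ) - 1 := by
    rw [Nat.cast_sub hr.one_le]; simp
  rw [h5]
  ring

lemma add_expand {r : ℕ} [Fact r.Prime] [NeZero r] (b : ZMod r) (n : ℕ) :
    (ZMod.stdAddChar (b * (n : ZMod r)) : ℂ) =
      (1 - (1 : DirichletCharacter ℂ r) (n : ZMod r)) +
        ∑ ψ : DirichletCharacter ℂ r, cc (fun x => ZMod.stdAddChar (b * x)) ψ * ψ (n : ZMod r) := by
  rw [← char_expand (fun x => (ZMod.stdAddChar (b * x) : ℂ)) n]
  by_cases h : n.Coprime r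
  · rw [if_pos h, MulChar.one_apply ((ZMod.isUnit_iff_coprime n r).2 h)]
    ring
  · rw [if_neg h, char_zero _ h]
    have hr : r.Prime := Fact.out
    have h1 : r ∣ n := by
      rw [Nat.coprime_comm, hr.coprime_iff_not_dvd] at h
      exact not_not.1 h
    have h2 : (n : ZMod r) = 0 := (ZMod.natCast_eq_zero_iff n r).2 h1
    rw [h2]
    simp

lemma gauss_shift {q : ℕ} [NeZero q] {χ : DirichletCharacter ℂ q} (hχ : χ.IsPrimitive) (n : ℕ) :
    ∑ a : ZMod q, χ⁻¹ a * (ZMod.stdAddChar (a * (n : ZMod q)) : ℂ) =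
      gaussSum χ⁻¹ (ZMod.stdAddChar : AddChar (ZMod q) ℂ) * χ (n : ZMod q) := by
  have hχ' : (χ⁻¹).IsPrimitive := by
    rw [isPrimitive_def, conductor_inv]
    exact hχ
  have := gaussSum_mulShift_of_isPrimitive (ZMod.stdAddChar : AddChar (ZMod q) ℂ) hχ' (n : ZMod q)
  rw [inv_inv] at this
  rw [mul_comm, ← this]
  unfold gaussSum
  refine Finset.sum_congr rfl fun a _ => ?_
  rw [AddChar.mulShift_apply, mul_comm a]

lemma gauss_ne {q : ℕ} [NeZero q] {χ : DirichletCharacter ℂ q} (hχ : χ.IsPrimitive) :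
    gaussSum χ⁻¹ (ZMod.stdAddChar : AddChar (ZMod q) ℂ) ≠ 0 := by
  intro h
  have h1 : ∀ k : ZMod q, ZMod.dft (fun a => (χ⁻¹) a) k = 0 := by
    intro k
    have h2 := gauss_shift hχ ((-k).val)
    rw [h, zero_mul] at h2
    rw [ZMod.dft_apply]
    rw [← h2]
    refine Finset.sum_congr rfl fun a _ => ?_
    rw [ZMod.natCast_zmod_val, smul_eq_mul, mul_comm]
    congr 2
    ring
  have h2 : (fun a => (χ⁻¹) a) = (0 : ZMod q → ℂ) := by
    apply (ZMod.dft (N := q) (E := ℂ)).injective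
    rw [_root_.map_zero]
    ext k
    exact h1 k
  have h3 := congrFun h2 1
  simp at h3

lemma entire_L {N : ℕ} [NeZero N] (χ : DirichletCharacter ℂ N) :
    ∃ K : ℂ → ℂ, Differentiable ℂ K ∧ ∀ s : ℂ, s ≠ 1 → K s = (s - 1) * LFunction χ s := by
  by_cases h : χ = 1
  · subst h
    refine ⟨LFunctionTrivChar₁ N, differentiable_LFunctionTrivChar₁ N, fun s hs => ?_⟩
    unfold LFunctionTrivChar₁
    rw [Function.update_of_ne hs]
  · exact ⟨fun s => (s - 1) * LFunction χ s,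
      (differentiable_id.sub_const 1).mul (differentiable_LFunction h), fun s _ => rfl⟩

lemma L_jn_one {q r : ℕ} [NeZero q] [NeZero r] (hr : r.Prime) (hrq : ¬ r ∣ q)
    (χ : DirichletCharacter ℂ q) {s : ℂ} (hs : s ≠ 1) :
    LFunction (jn χ (1 : DirichletCharacter ℂ r)) s =
      LFunction χ s * (1 - χ (r : ZMod q) * (r : ℂ) ^ (-s)) := by
  have h1 : jn χ (1 : DirichletCharacter ℂ r) = changeLevel (dvd_mul_right q r) χ := by
    rw [jn, map_one, mul_one]
  rw [h1, LFunction_changeLevel _ _ (Or.inr hs)]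
  congr 1
  rw [Nat.primeFactors_mul (NeZero.ne q) (NeZero.ne r), hr.primeFactors, Finset.union_comm,
    ← Finset.insert_eq, Finset.prod_insert, Finset.prod_eq_one, mul_one]
  · intro p hp
    rw [char_zero χ, zero_mul, sub_zero]
    intro h
    have h2 := Nat.dvd_of_mem_primeFactors hp
    have h3 := Nat.prime_of_mem_primeFactors hp
    exact (h3.coprime_iff_not_dvd.1 h) h2
  · intro h
    exact hrq (Nat.dvd_of_mem_primeFactors h)

/-- The combination of exponentials which isolates `χ`. -/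
lemma W_expand {q r : ℕ} [NeZero q] [Fact r.Prime] [NeZero r] {χ : DirichletCharacter ℂ q}
    (hχ : χ.IsPrimitive) (b : ZMod q → ℤ) (hb : ∀ a, ((b a : ℤ) : ZMod r) ≠ 0) (n : ℕ) :
    ∑ a : ZMod q, χ⁻¹ a * ex (((a.val : ℤ) : ℝ) / q + (b a : ℝ) / r) n =
      gaussSum χ⁻¹ (ZMod.stdAddChar : AddChar (ZMod q) ℂ) * χ (n : ZMod q) +
      (-(gaussSum χ⁻¹ (ZMod.stdAddChar : AddChar (ZMod q) ℂ) * (1 + ((r : ℂ) - 1)⁻¹))) *
        (χ (n : ZMod q) * (1 : DirichletCharacter ℂ r) (n : ZMod r)) +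
      ∑ ψ ∈ (Finset.univ.erase (1 : DirichletCharacter ℂ r)),
        (∑ a : ZMod q, χ⁻¹ a * cc (fun x => ZMod.stdAddChar (((b a : ℤ) : ZMod r) * x)) ψ *
          ZMod.stdAddChar (a * (n : ZMod q))) * ψ (n : ZMod r) := by
  classical
  set τ := gaussSum χ⁻¹ (ZMod.stdAddChar : AddChar (ZMod q) ℂ) with hτ
  have h1 : ∀ a : ZMod q, χ⁻¹ a * ex (((a.val : ℤ) : ℝ) / q + (b a : ℝ) / r) n =
      χ⁻¹ a * ZMod.stdAddChar (a * (n : ZMod q)) * (1 - (1 : DirichletCharacter ℂ r) (n : ZMod r)) +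
      ∑ ψ : DirichletCharacter ℂ r, (χ⁻¹ a *
        cc (fun x => ZMod.stdAddChar (((b a : ℤ) : ZMod r) * x)) ψ *
          ZMod.stdAddChar (a * (n : ZMod q))) * ψ (n : ZMod r) := by
    intro a
    rw [ex_rat, add_expand (((b a : ℤ) : ZMod r))]
    have : (((a.val : ℤ)) : ZMod q) = a := by
      rw [Int.cast_natCast, ZMod.natCast_zmod_val]
    rw [this, mul_add, mul_add, Finset.mul_sum, Finset.mul_sum]
    congr 1
    · ring
    · refine Finset.sum_congr rfl fun ψ _ => ?_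
      ring
  rw [Finset.sum_congr rfl fun a _ => h1 a, Finset.sum_add_distrib, ← Finset.sum_mul,
    gauss_shift hχ, Finset.sum_comm, ← Finset.add_sum_erase _ _ (Finset.mem_univ (1 : DirichletCharacter ℂ r))]
  have h2 : ∑ a : ZMod q, (χ⁻¹ a *
        cc (fun x => ZMod.stdAddChar (((b a : ℤ) : ZMod r) * x)) (1 : DirichletCharacter ℂ r) *
          ZMod.stdAddChar (a * (n : ZMod q))) * (1 : DirichletCharacter ℂ r) (n : ZMod r) =
      -((r : ℂ) - 1)⁻¹ * (τ * χ (n : ZMod q)) * (1 : DirichletCharacter ℂ r) (n : ZMod r) := by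
    rw [hτ, ← gauss_shift hχ, Finset.mul_sum, Finset.sum_mul]
    refine Finset.sum_congr rfl fun a _ => ?_
    rw [cc_one (hb a)]
    ring
  rw [h2]
  simp_rw [Finset.sum_mul]
  ring

/-- **Good prime lemma**, for primes in a given thick set. -/
theorem good_prime_thick {P : Set ℕ} (hP : Thick P) (q : ℕ) (hq : q ≠ 0) (ρ : ℂ)
    (hρ : 19 / 20 ≤ ρ.re) (R₀ : ℕ) : ∃ r : ℕ, R₀ ≤ r ∧ r ∈ P ∧ ¬ r ∣ q ∧ ¬ Bad q r ρ := by
  classical
  by_contra hcon
  push Not at hcon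
  obtain ⟨C, hC⟩ := few_bad q hq ρ hρ
  obtain ⟨R₁, hR₁⟩ := hC.exists_forall_of_atTop
  obtain ⟨R, h1, h2⟩ := hP.2 (C + (R₀ + q + 1)) (max R₁ 1)
  have hR1 : (1 : ℝ) ≤ R := by exact_mod_cast (le_max_right _ _).trans h1
  have hB := hR₁ R ((le_max_left _ _).trans h1)
  have h4 : {r : ℕ | r ∈ P ∧ r ≤ R} ⊆
      (((range (R + 1)).filter (fun r => r.Prime ∧ ¬ r ∣ q ∧ Bad q r ρ)) ∪
        (range (R₀ + q + 1)) : Finset ℕ) := by
    intro r hr
    rw [Finset.mem_coe, Finset.mem_union, Finset.mem_filter, Finset.mem_range, Finset.mem_range]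
    by_cases h5 : R₀ ≤ r
    · by_cases h6 : r ∣ q
      · right
        have := Nat.le_of_dvd (Nat.pos_of_ne_zero hq) h6
        omega
      · left
        exact ⟨by have := hr.2; omega, hP.1 r hr.1, h6, hcon r h5 hr.1 h6⟩
    · right
      omega
  have h5 := (Set.ncard_le_ncard h4 (Finset.finite_toSet _)).trans
    (le_of_eq (Set.ncard_coe_finset _))
  have h6 : ({r : ℕ | r ∈ P ∧ r ≤ R}.ncard : ℝ) ≤ (((range (R + 1)).filter
      (fun r => r.Prime ∧ ¬ r ∣ q ∧ Bad q r ρ)).card : ℝ) + (R₀ + q + 1) := by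
    have h7 := h5.trans (Finset.card_union_le _ _)
    rw [Finset.card_range] at h7
    exact_mod_cast h7
  have h8 : 1 ≤ (R : ℝ) ^ (3 / 4 : ℝ) := Real.one_le_rpow hR1 (by norm_num)
  have h9 : (0 : ℝ) ≤ (R₀ : ℝ) + q + 1 := by positivity
  nlinarith

lemma thick_primes : Thick {r : ℕ | r.Prime} := by
  refine ⟨fun r hr => hr, fun C R₀ => ?_⟩
  obtain ⟨R, h1, h2⟩ := ((primes_many C 0).and (eventually_ge_atTop R₀)).exists
  refine ⟨R, h2, ?_⟩
  have h3 : ({r : ℕ | r ∈ {r : ℕ | r.Prime} ∧ r ≤ R}.ncard) = Nat.primeCounting R := by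
    have h4 : {r : ℕ | r ∈ {r : ℕ | r.Prime} ∧ r ≤ R} =
        (((range (R + 1)).filter Nat.Prime : Finset ℕ) : Set ℕ) := by
      ext r
      simp only [Set.mem_setOf_eq, Finset.coe_filter, Finset.mem_range]
      constructor
      · rintro ⟨h5, h6⟩
        exact ⟨by omega, h5⟩
      · rintro ⟨h5, h6⟩
        exact ⟨h6, by omega⟩
    rw [h4, Set.ncard_coe_finset, Nat.primeCounting, Nat.primeCounting',
      Nat.count_eq_card_filter_range]
  rw [h3]
  linarith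

/-- Zeros of an `L`-function in `0 < Re s < 1` are zeros of the primitive one. -/
lemma primitive_zero {N : ℕ} [NeZero N] (χ₀ : DirichletCharacter ℂ N) {ρ : ℂ} (hρ0 : 0 < ρ.re)
    (hρne : ρ ≠ 1) (hzero : LFunction χ₀ ρ = 0) :
    haveI : NeZero χ₀.conductor := ⟨χ₀.conductor_ne_zero⟩
    LFunction χ₀.primitiveCharacter ρ = 0 := by
  classical
  haveI : NeZero χ₀.conductor := ⟨χ₀.conductor_ne_zero⟩
  set χ : DirichletCharacter ℂ χ₀.conductor := χ₀.primitiveCharacter with hχdef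
  have h1 : LFunction (changeLevel χ₀.conductor_dvd_level χ) ρ =
        LFunction χ ρ * ∏ p ∈ N.primeFactors, (1 - χ p * p ^ (-ρ)) :=
      LFunction_changeLevel _ _ (Or.inr hρne)
  rw [hχdef, changeLevel_primitiveCharacter, hzero] at h1
  rcases mul_eq_zero.1 h1.symm with h2 | h2
  · exact h2
  · exfalso
    rw [Finset.prod_eq_zero_iff] at h2
    obtain ⟨p, hp, h3⟩ := h2
    have hpp := Nat.prime_of_mem_primeFactors hp
    have hp1 : (1 : ℝ) < p := by exact_mod_cast hpp.one_lt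
    have h4 : ‖χ₀.primitiveCharacter (p : ZMod _) * (p : ℂ) ^ (-ρ)‖ < 1 := by
      rw [norm_mul]
      have h5 : ‖(p : ℂ) ^ (-ρ)‖ = (p : ℝ) ^ (-ρ.re) := by
        have := Complex.norm_cpow_eq_rpow_re_of_pos (by linarith : (0 : ℝ) < p) (-ρ)
        simpa using this
      have h6 : (p : ℝ) ^ (-ρ.re) < 1 := Real.rpow_lt_one_of_one_lt_of_neg hp1 (by linarith)
      rw [h5]
      have h7 := norm_le_one χ₀.primitiveCharacter (p : ZMod _)
      have h8 : 0 ≤ (p : ℝ) ^ (-ρ.re) := Real.rpow_nonneg (by linarith) _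
      nlinarith
    have h9 : χ₀.primitiveCharacter (p : ZMod _) * (p : ℂ) ^ (-ρ) = 1 := (sub_eq_zero.1 h3).symm
    rw [h9, norm_one] at h4
    exact lt_irrefl _ h4


/-- **Sparse frequencies, one modulus at a time.** Let `χ` be a primitive character modulo `q`
and `θ ≥ 19/20`. Suppose that for every large prime `r` of a thick set `P` and every residue `a` modulo
`q` there is some `b` prime to `r` such that the Dirichlet series `∑ μ(n) e(n α) n^{-s}` with
`α = a / q + b / r` continues analytically to `Re s > θ`. Then `L(s, χ)` has no zero with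
`θ < Re s < 1`. -/
theorem sparse_primitive {P : Set ℕ} (hP : Thick P) {θ : ℝ} (hθ : 19 / 20 ≤ θ) {q : ℕ} [NeZero q]
    {χ : DirichletCharacter ℂ q} (hχ : χ.IsPrimitive)
    (H : ∃ R₀ : ℕ, ∀ r : ℕ, R₀ ≤ r → r ∈ P → ∀ a : ZMod q, ∃ b : ℤ, ((b : ℤ) : ZMod r) ≠ 0 ∧
      ∃ F : ℂ → ℂ, DifferentiableOn ℂ F {s | θ < s.re} ∧
        ∀ s, 1 < s.re → F s = DS (ex (((a.val : ℤ) : ℝ) / q + (b : ℝ) / r)) s)
    (ρ : ℂ) (hρ1 : θ < ρ.re) (hρ2 : ρ.re < 1) : LFunction χ ρ ≠ 0 := by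
  classical
  have hρne : ρ ≠ 1 := by
    rintro rfl
    simp at hρ2
  have hρ0 : 0 < ρ.re := by linarith
  intro hz
  obtain ⟨R₀, H⟩ := H
  -- a good prime
  obtain ⟨R₁, hR₁⟩ : ∃ R₁ : ℕ, ∀ r : ℕ, R₁ ≤ r → (r : ℝ) ^ ρ.re < r - 1 := by
    have t1 : Tendsto (fun x : ℝ => x ^ (1 - ρ.re)) atTop atTop := tendsto_rpow_atTop (by linarith)
    obtain ⟨x₀, hx₀⟩ := (t1.eventually_ge_atTop 3).exists_forall_of_atTop
    refine ⟨max ⌈x₀⌉₊ 2, fun r hr => ?_⟩
    have h1 : x₀ ≤ r := (Nat.le_ceil x₀).trans (by exact_mod_cast (le_max_left _ _).trans hr)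
    have h2 : (2 : ℝ) ≤ r := by exact_mod_cast (le_max_right _ _).trans hr
    have h3 := hx₀ r h1
    have h4 : (r : ℝ) ^ (1 - ρ.re) * (r : ℝ) ^ ρ.re = r := by
      rw [← Real.rpow_add (by linarith)]
      simp
    have h5 : 0 < (r : ℝ) ^ ρ.re := Real.rpow_pos_of_pos (by linarith) _
    nlinarith
  obtain ⟨r, hr1, hrP, hrq, hgood⟩ := good_prime_thick hP q (NeZero.ne q) ρ (by linarith)
    (max R₁ R₀)
  have hrp : r.Prime := hP.1 r hrP
  haveI : NeZero r := ⟨hrp.ne_zero⟩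
  haveI : Fact r.Prime := ⟨hrp⟩
  have hrR1 : R₁ ≤ r := (le_max_left _ _).trans hr1
  have hr0 : (0 : ℝ) < r := by exact_mod_cast hrp.pos
  have hqr : q.Coprime r := ((Nat.Prime.coprime_iff_not_dvd hrp).2 hrq).symm
  have hPi : Pi q r ρ ≠ 0 := by
    unfold Pi
    rw [Finset.prod_ne_zero_iff]
    intro x hx h
    exact hgood ⟨x.1, x.2, mem_PP.1 hx, inferInstance, h⟩
  choose b hb hF using H r ((le_max_right _ _).trans hr1) hrP
  choose F hF1 hF2 using hF
  set τ := gaussSum χ⁻¹ (ZMod.stdAddChar : AddChar (ZMod q) ℂ) with hτ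
  have hτ0 : τ ≠ 0 := gauss_ne hχ
  -- the remaining part
  set g : ℕ → ℂ := fun n => ∑ ψ ∈ (Finset.univ.erase (1 : DirichletCharacter ℂ r)),
        (∑ a : ZMod q, χ⁻¹ a * cc (fun x => ZMod.stdAddChar (((b a : ℤ) : ZMod r) * x)) ψ *
          ZMod.stdAddChar (a * (n : ZMod q))) * ψ (n : ZMod r) with hg
  have hgE : Ext q r g := by
    refine Ext.sum fun ψ hψ => ?_
    exact ext_zmod hqr (fun y => ∑ a : ZMod q, χ⁻¹ a *
      cc (fun x => ZMod.stdAddChar (((b a : ℤ) : ZMod r) * x)) ψ *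
          ZMod.stdAddChar (a * y)) (Finset.ne_of_mem_erase hψ)
  obtain ⟨hgB, G, hG1, hG2⟩ := hgE
  obtain ⟨K, hK1, hK2⟩ := entire_L χ
  set E : ℂ → ℂ := fun s => 1 - χ (r : ZMod q) * (r : ℂ) ^ (-s) with hE
  have hrc : (r : ℂ) ≠ 0 := by exact_mod_cast hrp.ne_zero
  have hE1 : Differentiable ℂ E :=
    ((differentiable_id.neg.const_cpow (Or.inl hrc)).const_mul _).const_sub _
  set Hs : ℂ → ℂ := fun s => ∑ a : ZMod q, χ⁻¹ a * F a s with hHs
  have hHs1 : DifferentiableOn ℂ Hs {s | θ < s.re} :=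
    DifferentiableOn.fun_sum fun a _ => (hF1 a).const_mul _
  -- the identity for Re s > 1
  have key : ∀ s : ℂ, 1 < s.re → Pi q r s * K s * E s * Hs s =
      (s - 1) * (τ * Pi q r s * E s - τ * (1 + ((r : ℂ) - 1)⁻¹) * Pi q r s) +
        K s * E s * G s := by
    intro s hs
    have hs1 : s ≠ 1 := by
      rintro rfl
      simp at hs
    have h1 : Hs s = DS (fun n => ∑ a : ZMod q, χ⁻¹ a * ex (((a.val : ℤ) : ℝ) / q + (b a : ℝ) / r) n) s := by
      rw [DS_sum (fun a _ => (bdd_ex _).smul _) hs]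
      simp only [hHs]
      refine Finset.sum_congr rfl fun a _ => ?_
      rw [DS_smul, hF2 a s hs]
    have h2 : (fun n : ℕ => ∑ a : ZMod q, χ⁻¹ a * ex (((a.val : ℤ) : ℝ) / q + (b a : ℝ) / r) n) =
        fun n : ℕ => (τ * χ (n : ZMod q) + (-(τ * (1 + ((r : ℂ) - 1)⁻¹))) *
          (χ (n : ZMod q) * (1 : DirichletCharacter ℂ r) (n : ZMod r))) + g n := by
      ext n
      rw [W_expand hχ b hb n]
    have hB1 : Bdd (fun n => τ * χ (n : ZMod q)) := (bdd_char χ).smul _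
    have hB2 : Bdd (fun n => (-(τ * (1 + ((r : ℂ) - 1)⁻¹))) *
          (χ (n : ZMod q) * (1 : DirichletCharacter ℂ r) (n : ZMod r))) :=
      ((bdd_char χ).mul (bdd_char _)).smul _
    rw [h2, DS_add (hB1.add hB2) hgB hs, DS_add hB1 hB2 hs, DS_smul, DS_smul] at h1
    have h3 := DS_char χ hs
    have h4 := DS_char (jn χ (1 : DirichletCharacter ℂ r)) hs
    simp_rw [jn_apply] at h4
    rw [L_jn_one hrp hrq χ hs1] at h4
    rw [h1, hK2 s hs1, ← hG2 s hs]
    have h5 : E s = 1 - χ (r : ZMod q) * (r : ℂ) ^ (-s) := rfl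
    rw [← h5] at h4
    set A := DS (fun n => χ (n : ZMod q)) s
    set B := DS (fun n => χ (n : ZMod q) * (1 : DirichletCharacter ℂ r) (n : ZMod r)) s
    set L := LFunction χ s
    set P := Pi q r s
    set D := DS g s
    linear_combination (s - 1) * P * E s * τ * h3 -
      (s - 1) * P * τ * (1 + ((r : ℂ) - 1)⁻¹) * h4
  -- the identity theorem
  have hopen : IsOpen {s : ℂ | θ < s.re} := isOpen_lt continuous_const Complex.continuous_re
  have hconn : IsPreconnected {s : ℂ | θ < s.re} := (convex_halfSpace_re_gt θ).isPreconnected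
  have hPid := differentiable_Pi (q := q) (r := r) hqr
  have hA : AnalyticOnNhd ℂ (fun s => Pi q r s * K s * E s * Hs s) {s : ℂ | θ < s.re} :=
    ((((hPid.mul hK1).mul hE1).differentiableOn).mul hHs1).analyticOnNhd hopen
  have hB : AnalyticOnNhd ℂ (fun s => (s - 1) * (τ * Pi q r s * E s -
      τ * (1 + ((r : ℂ) - 1)⁻¹) * Pi q r s) + K s * E s * G s) {s : ℂ | θ < s.re} := by
    refine Differentiable.differentiableOn ?_ |>.analyticOnNhd hopen
    exact ((differentiable_id.sub_const 1).mul (((hPid.const_mul τ).mul hE1).sub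
      (hPid.const_mul _))).add ((hK1.mul hE1).mul hG1)
  have hid := hA.eqOn_of_preconnected_of_eventuallyEq hB hconn (z₀ := 2)
    (by simp; linarith) (by
      have h2 : {s : ℂ | 1 < s.re} ∈ nhds (2 : ℂ) :=
        (isOpen_lt continuous_const Complex.continuous_re).mem_nhds (by simp)
      filter_upwards [h2] with s hs
      exact key s hs)
  have hfin := hid (show ρ ∈ {s : ℂ | θ < s.re} from hρ1)
  simp only at hfin
  rw [hK2 ρ hρne, hz] at hfin
  have h1 : (ρ - 1) * τ * Pi q r ρ * (E ρ - (1 + ((r : ℂ) - 1)⁻¹)) = 0 := by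
    linear_combination -hfin
  have h2 : E ρ - (1 + ((r : ℂ) - 1)⁻¹) = 0 := by
    rcases mul_eq_zero.1 h1 with h | h
    · exfalso
      exact mul_ne_zero (mul_ne_zero (sub_ne_zero.2 hρne) hτ0) hPi h
    · exact h
  have h3 : χ (r : ZMod q) * (r : ℂ) ^ (-ρ) = -((r : ℂ) - 1)⁻¹ := by
    simp only [hE] at h2
    linear_combination -h2
  have h4 : ‖χ (r : ZMod q)‖ = 1 := by
    have hu : IsUnit (r : ZMod q) := (ZMod.isUnit_iff_coprime r q).2 hqr.symm
    rw [← hu.unit_spec]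
    exact unit_norm_eq_one χ _
  have h5 : ‖(r : ℂ) ^ (-ρ)‖ = (r : ℝ) ^ (-ρ.re) := by
    have := Complex.norm_cpow_eq_rpow_re_of_pos hr0 (-ρ)
    simpa using this
  have h6 := hR₁ r hrR1
  have hr2 : (2 : ℝ) ≤ r := by exact_mod_cast hrp.two_le
  have h7 : ‖-((r : ℂ) - 1)⁻¹‖ = ((r : ℝ) - 1)⁻¹ := by
    rw [norm_neg, norm_inv]
    congr 1
    rw [show (r : ℂ) - 1 = (((r : ℝ) - 1 : ℝ) : ℂ) by push_cast; ring, Complex.norm_real,
      Real.norm_of_nonneg (by linarith)]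
  have h8 := congrArg norm h3
  rw [norm_mul, h4, h5, h7, one_mul, Real.rpow_neg hr0.le] at h8
  have h9 := inv_injective h8
  linarith

/-- The set `near P x` contains, for `r` in `P` with `q < r`, a fraction `a / q + b / r` with `b`
prime to `r`. -/
lemma exists_near {P : Set ℕ} (hP : Thick P) (x : ℝ) {q r : ℕ} [NeZero q] (hr : r ∈ P)
    (hqr : q < r) (a : ZMod q) : ∃ b : ℤ, ((b : ℤ) : ZMod r) ≠ 0 ∧
      (((a.val : ℤ) : ℚ) / q + (b : ℚ) / r) ∈ near P x ∧
        ((((a.val : ℤ) : ℚ) / q + (b : ℚ) / r : ℚ) : ℝ) ≤ x + 2 / r := by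
  have hrp : r.Prime := hP.1 r hr
  haveI : Fact r.Prime := ⟨hrp⟩
  have hr0 : (0 : ℝ) < r := by exact_mod_cast hrp.pos
  have hq0 : 0 < q := Nat.pos_of_ne_zero (NeZero.ne q)
  set u : ℝ := ((a.val : ℤ) : ℝ) / q with hu
  set b₀ : ℤ := ⌊(x - u) * r⌋ + 1 with hb₀
  have h1 : (x - u) * r < b₀ := by
    rw [hb₀]; push_cast; exact Int.lt_floor_add_one _
  have h2 : (b₀ : ℝ) ≤ (x - u) * r + 1 := by
    rw [hb₀]; push_cast; linarith [Int.floor_le ((x - u) * r)]
  have h3 : ∀ b : ℤ, b = b₀ ∨ b = b₀ + 1 → x < u + (b : ℝ) / r ∧ u + (b : ℝ) / r ≤ x + 2 / r := by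
    intro b hb
    have hb1 : (b₀ : ℝ) ≤ b ∧ (b : ℝ) ≤ b₀ + 1 := by
      rcases hb with rfl | rfl
      · exact ⟨le_rfl, by linarith⟩
      · push_cast; exact ⟨by linarith, le_rfl⟩
    constructor
    · have : x - u < (b : ℝ) / r := by
        rw [lt_div_iff₀ hr0]; linarith [hb1.1]
      linarith
    · have h4 : (b : ℝ) / r ≤ x - u + 2 / r := by
        rw [div_le_iff₀ hr0]
        have : (x - u + 2 / r) * r = (x - u) * r + 2 := by field_simp
        linarith [hb1.2]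
      linarith
  have h5 : ∃ b : ℤ, ((b : ℤ) : ZMod r) ≠ 0 ∧ (b = b₀ ∨ b = b₀ + 1) := by
    by_cases hb : ((b₀ : ℤ) : ZMod r) = 0
    · refine ⟨b₀ + 1, ?_, Or.inr rfl⟩
      push_cast
      rw [hb, zero_add]
      exact one_ne_zero
    · exact ⟨b₀, hb, Or.inl rfl⟩
  obtain ⟨b, hb, hbb⟩ := h5
  refine ⟨b, hb, ?_⟩
  set α : ℚ := ((a.val : ℤ) : ℚ) / q + (b : ℚ) / r with hα
  have hαr : (α : ℝ) = u + (b : ℝ) / r := by
    rw [hα, hu]; push_cast; rfl
  have hq' : (q : ℚ) ≠ 0 := by exact_mod_cast hq0.ne'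
  have hr' : (r : ℚ) ≠ 0 := by exact_mod_cast hrp.ne_zero
  set c : ℤ := (a.val : ℤ) * r + b * q with hc
  have hαc : α * ((q * r : ℕ) : ℚ) = c := by
    rw [hα, hc]
    push_cast
    field_simp
  -- the denominator divides `q * r`
  have hden : α.den ∣ q * r := by
    have h6 : ((α.den : ℕ) : ℤ) ∣ ((q * r : ℕ) : ℤ) := by
      have h7 : (α.num : ℚ) * ((q * r : ℕ) : ℚ) = c * (α.den : ℚ) := by
        rw [← hαc]
        have := Rat.mul_den_eq_num α
        rw [← this]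
        ring
      have h8 : α.num * ((q * r : ℕ) : ℤ) = c * (α.den : ℤ) := by exact_mod_cast h7
      have h9 : IsCoprime (α.den : ℤ) α.num := by
        rw [Int.isCoprime_iff_nat_coprime]
        simpa using α.reduced.symm
      exact h9.dvd_of_dvd_mul_left ⟨c, by rw [h8]; ring⟩
    exact_mod_cast h6
  have hrq : ¬ r ∣ q := fun h => absurd (Nat.le_of_dvd hq0 h) (by omega)
  have hrc : ¬ (r : ℤ) ∣ c := by
    intro h
    have h6 : (r : ℤ) ∣ b * q := by
      have : b * q = c - (a.val : ℤ) * r := by rw [hc]; ring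
      rw [this]
      exact dvd_sub h (Dvd.intro_left _ rfl)
    rcases (Nat.prime_iff_prime_int.1 hrp).dvd_or_dvd h6 with h7 | h7
    · exact hb ((ZMod.intCast_zmod_eq_zero_iff_dvd b r).2 h7)
    · exact hrq (by exact_mod_cast h7)
  have hrden : r ∣ α.den := by
    by_contra hnd
    have h6 : Nat.Coprime α.den r := ((Nat.Prime.coprime_iff_not_dvd hrp).2 hnd).symm
    have h7 : α.den ∣ q := h6.dvd_of_dvd_mul_right hden
    obtain ⟨k, hk⟩ := h7
    apply hrc
    have h8 : (c : ℚ) = α.num * k * r := by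
      rw [← hαc, hk]
      push_cast
      have := Rat.mul_den_eq_num α
      rw [← this]
      ring
    exact ⟨α.num * k, by
      have : (c : ℚ) = ((r * (α.num * k) : ℤ) : ℚ) := by rw [h8]; push_cast; ring
      exact_mod_cast this⟩
  refine ⟨⟨r, hr, hrden, ?_, ?_, ?_⟩, by rw [hαr]; exact (h3 b hbb).2⟩
  · calc α.den ≤ q * r := Nat.le_of_dvd (Nat.mul_pos hq0 hrp.pos) hden
      _ < r * r := by
        apply Nat.mul_lt_mul_of_pos_right hqr hrp.pos
      _ = r ^ 2 := by ring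
  · rw [hαr]; exact (h3 b hbb).1
  · rw [hαr]; exact (h3 b hbb).2

/-- **Frequencies converging to a prescribed point.** -/
theorem near_global {P : Set ℕ} (hP : Thick P) {x ε θ : ℝ} (hε : 0 < ε) (hθ : 19 / 20 ≤ θ)
    (H : ∀ α ∈ near P x, (α : ℝ) < x + ε → Continues θ α)
    (N : ℕ) [NeZero N] (χ₀ : DirichletCharacter ℂ N) (ρ : ℂ) (hρ1 : θ < ρ.re) (hρ2 : ρ.re < 1) :
    LFunction χ₀ ρ ≠ 0 := by
  classical
  have hρne : ρ ≠ 1 := by
    rintro rfl
    simp at hρ2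
  intro hzero
  have hρ0 : 0 < ρ.re := by linarith
  haveI : NeZero χ₀.conductor := ⟨χ₀.conductor_ne_zero⟩
  refine sparse_primitive hP hθ (primitiveCharacter_isPrimitive χ₀) ?_ ρ hρ1 hρ2
    (primitive_zero χ₀ hρ0 hρne hzero)
  set q : ℕ := χ₀.conductor with hq
  refine ⟨max (q + 1) (⌈3 / ε⌉₊ + 1), fun r hr1 hrP a => ?_⟩
  have hrp : r.Prime := hP.1 r hrP
  haveI : NeZero r := ⟨hrp.ne_zero⟩
  haveI : Fact r.Prime := ⟨hrp⟩
  obtain ⟨b, hb, hα, hα2⟩ := exists_near hP x hrP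
    (lt_of_lt_of_le (Nat.lt_succ_self q) ((le_max_left _ _).trans hr1)) a
  refine ⟨b, hb, ?_⟩
  have e1 : (((((a.val : ℤ) : ℚ) / q + (b : ℚ) / r : ℚ)) : ℝ) =
      ((a.val : ℤ) : ℝ) / q + (b : ℝ) / r := by
    push_cast
    rfl
  have hr3 : 3 / ε < r := by
    have h1 : ⌈3 / ε⌉₊ + 1 ≤ r := (le_max_right _ _).trans hr1
    have h2 : ((⌈3 / ε⌉₊ + 1 : ℕ) : ℝ) ≤ r := by exact_mod_cast h1
    push_cast at h2
    linarith [Nat.le_ceil (3 / ε)]
  have hr0 : (0 : ℝ) < r := by exact_mod_cast hrp.pos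
  have h4 : 2 / (r : ℝ) < ε := by
    rw [div_lt_iff₀ hε] at hr3
    rw [div_lt_iff₀ hr0]
    linarith
  obtain ⟨F, hF1, hF2⟩ := H _ hα (by linarith)
  rw [e1] at hF2
  exact ⟨F, hF1, fun s hs => hF2 s hs⟩

/-- **The local to global principle.** If the Dirichlet series `∑ μ(n) e(n α) n^{-s}` has an
analytic continuation to `Re s > θ` for all rational `α` in some open interval, where
`θ ≥ 19/20`, then no Dirichlet `L`-function has a zero with `θ < Re s < 1`. -/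
theorem local_global {lo hi θ : ℝ} (hlh : lo < hi) (hθ : 19 / 20 ≤ θ)
    (H : ∀ α : ℚ, lo < α → (α : ℝ) < hi → ∃ F : ℂ → ℂ, DifferentiableOn ℂ F {s | θ < s.re} ∧
      ∀ s, 1 < s.re → F s = DS (ex α) s)
    (N : ℕ) [NeZero N] (χ₀ : DirichletCharacter ℂ N) (ρ : ℂ) (hρ1 : θ < ρ.re) (hρ2 : ρ.re < 1) :
    LFunction χ₀ ρ ≠ 0 := by
  refine near_global thick_primes (x := lo) (ε := hi - lo) (by linarith) hθ ?_ N χ₀ ρ hρ1 hρ2
  rintro α ⟨r, hr, h1, h2, h3, h4⟩ h5
  exact H α h3 (by linarith)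

end Vale.Agent.P026.H147
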