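import Vale.Agent.P026.TP.M3

/-!
# Minor arcs for the Möbius function

The type I and type II estimates are those of `Vale.Agent.P026.TP.M3`.
-/

open Finset ArithmeticFunction
open scoped ArithmeticFunction.Moebius ArithmeticFunction.zeta

namespace Vale.Agent.P026.H147

open Vale.Agent.P026.TP Vale.Agent.P026.TP.M3

theorem vaughan_mu (Y : ℕ) : mu = lo Y mu + lo Y mu -
    lo Y mu * lo Y mu * (ζ : ArithmeticFunction ℝ) +
      ((mu - lo Y mu) * (ζ : ArithmeticFunction ℝ)) * (mu - lo Y mu) := by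
  have h1 : mu * (ζ : ArithmeticFunction ℝ) = 1 := coe_moebius_mul_coe_zeta
  linear_combination (2 * lo Y mu - mu) * h1

theorem abs_lo_mu_le (Y n : ℕ) : |lo Y mu n| ≤ 1 := by
  rw [lo_apply]
  split_ifs
  · exact abs_mu_le _
  · simp

theorem U0_le (N Y : ℕ) (α : ℝ) :
    ‖∑ n ∈ Icc 1 N, ((lo Y mu n : ℝ) : ℂ) * e (n * α)‖ ≤ Y := by
  have h1 : ∀ n ∈ Icc 1 N, ‖((lo Y mu n : ℝ) : ℂ) * e (n * α)‖ ≤ if n ≤ Y then 1 else 0 := by
    intro n _
    rw [norm_mul, norm_e, mul_one, Complex.norm_real, Real.norm_eq_abs]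
    split_ifs with h
    · exact abs_lo_mu_le _ _
    · rw [lo_apply, if_neg h]; simp
  refine (norm_sum_le _ _).trans ((Finset.sum_le_sum h1).trans ?_)
  rw [← Finset.sum_filter, Finset.sum_const, nsmul_eq_mul, mul_one]
  have h2 : (Icc 1 N).filter (fun m => m ≤ Y) ⊆ Icc 1 Y := by
    intro m hm
    rw [Finset.mem_filter, Finset.mem_Icc] at hm
    rw [Finset.mem_Icc]
    omega
  have h3 := Finset.card_le_card h2
  rw [Nat.card_Icc] at h3
  exact_mod_cast (by omega : ((Icc 1 N).filter (fun m => m ≤ Y)).card ≤ Y)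

theorem U2_le {q : ℕ} (hq : 1 ≤ q) {a : ℤ} (ha : IsCoprime a (q : ℤ)) {α : ℝ}
    (hα : |α - a / q| ≤ 1 / (q : ℝ) ^ 2) {N Y : ℕ} (hY : 2 * (Y * Y) ≤ q) :
    ‖∑ n ∈ Icc 1 N, (((lo Y mu * lo Y mu * (ζ : ArithmeticFunction ℝ)) n : ℝ) : ℂ) *
      e (n * α)‖ ≤ ((Y * Y : ℕ) : ℝ) * (((Y * Y : ℕ) : ℝ) * (2 * q * 1)) := by
  rw [twist_mul]
  have hz : ∀ m, Y * Y < m → (lo Y mu * lo Y mu) m = 0 := by
    intro m hm
    rw [ArithmeticFunction.mul_apply]
    apply Finset.sum_eq_zero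
    intro x hx
    have h1 := (Nat.mem_divisorsAntidiagonal.1 hx).1
    rw [lo_apply, lo_apply]
    by_cases h2 : x.1 ≤ Y
    · by_cases h3 : x.2 ≤ Y
      · have := Nat.mul_le_mul h2 h3
        omega
      · rw [if_neg h3, mul_zero]
    · rw [if_neg h2, zero_mul]
  apply typeI hq ha hα hY (fun m => (lo Y mu * lo Y mu) m)
    (fun n => (ζ : ArithmeticFunction ℝ) n) (Nat.cast_nonneg _) zero_le_one
  · intro m hm
    by_cases hmY : Y * Y < m
    · rw [hz m hmY, abs_zero]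
      positivity
    rw [ArithmeticFunction.mul_apply]
    refine (Finset.abs_sum_le_sum_abs _ _).trans ?_
    have h1 : ∀ x ∈ m.divisorsAntidiagonal, |lo Y mu x.1 * lo Y mu x.2| ≤ 1 := by
      intro x _
      rw [abs_mul]
      exact mul_le_one₀ (abs_lo_mu_le _ _) (abs_nonneg _) (abs_lo_mu_le _ _)
    refine (Finset.sum_le_sum h1).trans ?_
    rw [Finset.sum_const, nsmul_eq_mul, mul_one]
    have h2 : m.divisorsAntidiagonal.card ≤ m := by
      rw [← Nat.map_div_right_divisors, Finset.card_map]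
      exact Nat.card_divisors_le_self m
    push Not at hmY
    exact_mod_cast h2.trans hmY
  · exact hz
  · simp
  · intro m n hmn
    simp only [natCoe_apply, zeta_apply]
    split_ifs <;> simp
    omega
  · intro n hn
    simp only [natCoe_apply, zeta_apply]
    split_ifs <;> simp

theorem U3_le {q : ℕ} (hq : 1 ≤ q) {a : ℤ} (ha : IsCoprime a (q : ℤ)) {α : ℝ}
    (hα : |α - a / q| ≤ 1 / (q : ℝ) ^ 2) {N Y : ℕ} (hqN : q ≤ N) :
    ‖∑ n ∈ Icc 1 N, (((((mu - lo Y mu) * (ζ : ArithmeticFunction ℝ)) *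
      (mu - lo Y mu)) n : ℝ) : ℂ) * e (n * α)‖ ^ 2 ≤
      (1 + Real.log N) ^ 8 * (2 * (N : ℝ) ^ 2 * (8 / q + 12 / (Y + 1) + 4 * q / N)) := by
  rw [twist_mul]
  have hb : ∀ x, |(mu - lo Y mu) x| ≤ 1 := by
    intro x
    rw [sub_app, lo_apply]
    split_ifs
    · simp
    · rw [sub_zero]; exact abs_mu_le _
  apply typeII hq ha hα hqN (fun m => ((mu - lo Y mu) * (ζ : ArithmeticFunction ℝ)) m)
    (fun n => (mu - lo Y mu) n)
  · intro m
    rw [coe_mul_zeta_apply]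
    refine (Finset.abs_sum_le_sum_abs _ _).trans ?_
    refine (Finset.sum_le_sum fun x _ => hb x).trans ?_
    rw [Finset.sum_const, nsmul_eq_mul, mul_one]
    exact le_rfl
  · intro m hm
    rw [coe_mul_zeta_apply]
    apply Finset.sum_eq_zero
    intro x hx
    have h1 : x ≤ Y := (Nat.divisor_le hx).trans hm
    rw [sub_app, lo_apply, if_pos h1, sub_self]
  · intro k hk
    have := Real.log_natCast_nonneg N
    have := hb k
    linarith
  · intro k hk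
    rw [sub_app, lo_apply, if_pos hk, sub_self]

theorem minor_pre_mu {q : ℕ} (hq : 1 ≤ q) {a : ℤ} (ha : IsCoprime a (q : ℤ)) {α : ℝ}
    (hα : |α - a / q| ≤ 1 / (q : ℝ) ^ 2) {N Y : ℕ} (hqN : q ≤ N) (hY : 2 * (Y * Y) ≤ q)
    (hY1 : 1 ≤ Y) :
    ‖∑ n ∈ Icc 1 N, ((μ n : ℤ) : ℂ) * e ((n : ℝ) * α)‖ ≤
      4 * ((Y : ℝ) ^ 4 * q) + Real.sqrt ((1 + Real.log N) ^ 8 *
        (2 * (N : ℝ) ^ 2 * (8 / q + 12 / (Y + 1) + 4 * q / N))) := by
  have hmu : ∀ n, ((μ n : ℤ) : ℂ) = ((mu n : ℝ) : ℂ) := by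
    intro n
    have h1 : mu n = ((μ n : ℤ) : ℝ) := rfl
    rw [h1]
    push_cast
    rfl
  have h0 : ∑ n ∈ Icc 1 N, ((μ n : ℤ) : ℂ) * e ((n : ℝ) * α) =
      ∑ n ∈ Icc 1 N, ((lo Y mu n : ℝ) : ℂ) * e (n * α) +
      ∑ n ∈ Icc 1 N, ((lo Y mu n : ℝ) : ℂ) * e (n * α) -
      ∑ n ∈ Icc 1 N, (((lo Y mu * lo Y mu * (ζ : ArithmeticFunction ℝ)) n : ℝ) : ℂ) *
        e (n * α) +
      ∑ n ∈ Icc 1 N, (((((mu - lo Y mu) * (ζ : ArithmeticFunction ℝ)) *
        (mu - lo Y mu)) n : ℝ) : ℂ) * e (n * α) := by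
    rw [← Finset.sum_add_distrib, ← Finset.sum_sub_distrib, ← Finset.sum_add_distrib]
    apply Finset.sum_congr rfl
    intro n _
    rw [← add_mul, ← sub_mul, ← add_mul]
    congr 1
    rw [hmu]
    conv_lhs => rw [vaughan_mu Y]
    rw [ArithmeticFunction.add_apply, sub_app, ArithmeticFunction.add_apply]
    push_cast
    ring
  have h1 := U0_le N Y α
  have h3 := U2_le hq ha hα (N := N) hY
  have h4 := U3_le hq ha hα (N := N) (Y := Y) hqN
  have h5 := Real.le_sqrt_of_sq_le h4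
  rw [h0]
  refine (norm_add_le _ _).trans (add_le_add ?_ h5)
  refine (norm_sub_le _ _).trans ?_
  refine (add_le_add (norm_add_le _ _) le_rfl).trans ?_
  have hY' : (1 : ℝ) ≤ Y := by exact_mod_cast hY1
  have hq' : (1 : ℝ) ≤ q := by exact_mod_cast hq
  have e1 : (Y : ℝ) ≤ (Y : ℝ) ^ 4 * q := by
    have : (Y : ℝ) ^ 1 ≤ (Y : ℝ) ^ 4 := pow_le_pow_right₀ hY' (by norm_num)
    rw [pow_one] at this
    nlinarith
  have e3 : ((Y * Y : ℕ) : ℝ) * (((Y * Y : ℕ) : ℝ) * (2 * q * 1)) = 2 * ((Y : ℝ) ^ 4 * q) := by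
    push_cast
    ring
  rw [e3] at h3
  linarith

theorem trivial_mu (N : ℕ) (α : ℝ) :
    ‖∑ n ∈ Icc 1 N, ((μ n : ℤ) : ℂ) * e ((n : ℝ) * α)‖ ≤ N := by
  have h1 : ∀ n ∈ Icc 1 N, ‖((μ n : ℤ) : ℂ) * e ((n : ℝ) * α)‖ ≤ 1 := by
    intro n hn
    rw [norm_mul, norm_e, mul_one, Complex.norm_intCast]
    exact_mod_cast (abs_moebius_le_one (n := n))
  refine (norm_sum_le _ _).trans ((Finset.sum_le_sum h1).trans (le_of_eq ?_))
  simp

/-- **Minor arcs for the Möbius function.** -/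
theorem minor_mu (κ : ℝ) (hκ0 : 0 < κ) (hκ1 : κ < 1 / 2) : ∃ δ C : ℝ, 0 < δ ∧ 0 < C ∧
    ∀ (N q : ℕ) (a : ℤ) (α : ℝ), 1 ≤ N → 1 ≤ q → IsCoprime a (q : ℤ) →
    |α - a / q| ≤ 1 / (q : ℝ) ^ 2 → (N : ℝ) ^ κ ≤ q → (q : ℝ) ≤ (N : ℝ) ^ (1 - κ) →
    ‖∑ n ∈ Icc 1 N, ((μ n : ℤ) : ℂ) * e ((n : ℝ) * α)‖ ≤ C * (N : ℝ) ^ (1 - δ) := by
  set ε := κ / 128 with hε
  have hε0 : 0 < ε := by positivity
  set K := 1 + 1 / ε with hK
  have hK1 : 1 ≤ K := by
    have : 0 < 1 / ε := by positivity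
    linarith
  refine ⟨κ / 32, 12 * K ^ 4, by positivity, by positivity, ?_⟩
  intro N q a α hN hq ha hα hqκ hqN
  have hN' : (1 : ℝ) ≤ N := by exact_mod_cast hN
  have hN0 : (0 : ℝ) < N := by linarith
  have hq' : (1 : ℝ) ≤ q := by exact_mod_cast hq
  have hL := log_bound hε0 hN
  rw [← hK] at hL
  have hL1 : 1 ≤ 1 + Real.log N := by
    have := Real.log_natCast_nonneg N
    linarith
  set L := 1 + Real.log N with hLdef
  have hKK : 1 ≤ K ^ 4 := one_le_pow₀ hK1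
  by_cases hsmall : (N : ℝ) ^ (κ / 2) < 2
  · refine (trivial_mu N α).trans ?_
    have h2 : (N : ℝ) = (N : ℝ) ^ (1 - κ / 32) * (N : ℝ) ^ (κ / 32) := by
      rw [← Real.rpow_add hN0]
      simp
    have h3 : (N : ℝ) ^ (κ / 32) ≤ (N : ℝ) ^ (κ / 2) :=
      Real.rpow_le_rpow_of_exponent_le hN' (by linarith)
    have h4 : 0 < (N : ℝ) ^ (1 - κ / 32) := Real.rpow_pos_of_pos hN0 _
    calc (N : ℝ) = (N : ℝ) ^ (1 - κ / 32) * (N : ℝ) ^ (κ / 32) := h2
      _ ≤ (N : ℝ) ^ (1 - κ / 32) * 2 := by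
          gcongr
          linarith
      _ = 2 * (N : ℝ) ^ (1 - κ / 32) := by ring
      _ ≤ 12 * K ^ 4 * (N : ℝ) ^ (1 - κ / 32) := by
          apply mul_le_mul_of_nonneg_right _ h4.le
          linarith
  · push Not at hsmall
    set y := (N : ℝ) ^ (κ / 8) with hy
    have hy1 : 1 ≤ y := Real.one_le_rpow hN' (by positivity)
    set Y := ⌊y⌋₊ with hYdef
    have hY1 : 1 ≤ Y := Nat.le_floor (by exact_mod_cast hy1)
    have hYy : (Y : ℝ) ≤ y := Nat.floor_le (by linarith)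
    have hyY : y < Y + 1 := Nat.lt_floor_add_one y
    have hyy : y ^ 4 = (N : ℝ) ^ (κ / 2) := by
      rw [hy, ← Real.rpow_natCast, ← Real.rpow_mul hN0.le]; congr 1; push_cast; ring
    have hYY4 : (Y : ℝ) ^ 4 ≤ (N : ℝ) ^ (κ / 2) := by
      rw [← hyy]; exact pow_le_pow_left₀ (by positivity) hYy 4
    have hYr : (1 : ℝ) ≤ Y := by exact_mod_cast hY1
    have hYY : (Y : ℝ) * Y ≤ (N : ℝ) ^ (κ / 2) := by
      refine le_trans ?_ hYY4
      have : (Y : ℝ) ^ 2 ≤ (Y : ℝ) ^ 4 := pow_le_pow_right₀ hYr (by norm_num)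
      nlinarith
    have hκκ : (N : ℝ) ^ (κ / 2) * (N : ℝ) ^ (κ / 2) = (N : ℝ) ^ κ := by
      rw [← Real.rpow_add hN0]; congr 1; ring
    have hY2 : 2 * (Y * Y) ≤ q := by
      have : (2 : ℝ) * (Y * Y) ≤ q := by
        calc (2 : ℝ) * (Y * Y) ≤ (N : ℝ) ^ (κ / 2) * (N : ℝ) ^ (κ / 2) :=
              mul_le_mul hsmall hYY (by positivity) (by positivity)
          _ ≤ q := by rw [hκκ]; exact hqκ
      exact_mod_cast this
    have hqN' : q ≤ N := by
      have h1 : (N : ℝ) ^ (1 - κ) ≤ (N : ℝ) ^ (1 : ℝ) :=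
        Real.rpow_le_rpow_of_exponent_le hN' (by linarith)
      rw [Real.rpow_one] at h1
      exact_mod_cast hqN.trans h1
    refine (minor_pre_mu hq ha hα hqN' hY2 hY1).trans ?_
    set P := (N : ℝ) ^ (1 - κ / 16) with hP
    have hP0 : 0 < P := Real.rpow_pos_of_pos hN0 _
    have hL4 : 1 ≤ L ^ 4 := one_le_pow₀ hL1
    have h1 : 4 * ((Y : ℝ) ^ 4 * q) ≤ 4 * P * L ^ 4 := by
      have h2 : (Y : ℝ) ^ 4 * q ≤ P := by
        calc (Y : ℝ) ^ 4 * q ≤ (N : ℝ) ^ (κ / 2) * (N : ℝ) ^ (1 - κ) :=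
              mul_le_mul hYY4 hqN (by positivity) (by positivity)
          _ = (N : ℝ) ^ (1 - κ / 2) := by rw [← Real.rpow_add hN0]; congr 1; ring
          _ ≤ P := Real.rpow_le_rpow_of_exponent_le hN' (by linarith)
      have h3 : P ≤ P * L ^ 4 := le_mul_of_one_le_right hP0.le hL4
      linarith
    have h2 : Real.sqrt (L ^ 8 * (2 * (N : ℝ) ^ 2 * (8 / q + 12 / (Y + 1) + 4 * q / N))) ≤
        7 * P * L ^ 4 := by
      apply Real.sqrt_le_iff.2
      refine ⟨by positivity, ?_⟩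
      set z := (N : ℝ) ^ (-(κ / 8)) with hz
      have hz0 : 0 < z := Real.rpow_pos_of_pos hN0 _
      have hyz : y * z = 1 := by
        rw [hy, hz, ← Real.rpow_add hN0, add_neg_cancel, Real.rpow_zero]
      have h3 : 8 / (q : ℝ) ≤ 8 * z := by
        rw [div_le_iff₀ (by positivity)]
        have : y ≤ q := by
          calc y ≤ (N : ℝ) ^ κ := Real.rpow_le_rpow_of_exponent_le hN' (by linarith)
            _ ≤ q := hqκ
        nlinarith
      have h4 : 12 / ((Y : ℝ) + 1) ≤ 12 * z := by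
        rw [div_le_iff₀ (by positivity)]
        nlinarith
      have h5 : 4 * (q : ℝ) / N ≤ 4 * z := by
        rw [div_le_iff₀ hN0]
        have h6 : (N : ℝ) ^ (1 - κ) ≤ z * N := by
          nth_rewrite 2 [← Real.rpow_one (N : ℝ)]
          rw [hz, ← Real.rpow_add hN0]
          exact Real.rpow_le_rpow_of_exponent_le hN' (by linarith)
        linarith
      have h6 : P ^ 2 = (N : ℝ) ^ 2 * z := by
        rw [hP, hz, ← Real.rpow_natCast, ← Real.rpow_natCast, ← Real.rpow_mul hN0.le,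
          ← Real.rpow_add hN0]
        congr 1
        push_cast
        ring
      calc L ^ 8 * (2 * (N : ℝ) ^ 2 * (8 / q + 12 / (Y + 1) + 4 * q / N))
          ≤ L ^ 8 * (2 * (N : ℝ) ^ 2 * (24 * z)) := by
            apply mul_le_mul_of_nonneg_left _ (by positivity)
            apply mul_le_mul_of_nonneg_left _ (by positivity)
            linarith
        _ = 48 * (P ^ 2 * L ^ 8) := by rw [h6]; ring
        _ ≤ 49 * (P ^ 2 * L ^ 8) := by
            have : 0 ≤ P ^ 2 * L ^ 8 := by positivity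
            linarith
        _ = (7 * P * L ^ 4) ^ 2 := by ring
    have h3 : L ^ 4 ≤ K ^ 4 * (N : ℝ) ^ (κ / 32) := by
      calc L ^ 4 ≤ (K * (N : ℝ) ^ ε) ^ 4 := pow_le_pow_left₀ (by linarith) hL 4
        _ = K ^ 4 * (N : ℝ) ^ (κ / 32) := by
            rw [mul_pow]
            congr 1
            rw [← Real.rpow_natCast, ← Real.rpow_mul hN0.le]
            congr 1
            rw [hε]; push_cast; ring
    have h4 : P * (N : ℝ) ^ (κ / 32) = (N : ℝ) ^ (1 - κ / 32) := by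
      rw [hP, ← Real.rpow_add hN0]; congr 1; ring
    calc 4 * ((Y : ℝ) ^ 4 * q) + Real.sqrt (L ^ 8 *
          (2 * (N : ℝ) ^ 2 * (8 / q + 12 / (Y + 1) + 4 * q / N)))
        ≤ 4 * P * L ^ 4 + 7 * P * L ^ 4 := add_le_add h1 h2
      _ ≤ 12 * (P * L ^ 4) := by
          have : 0 ≤ P * L ^ 4 := by positivity
          linarith
      _ ≤ 12 * (P * (K ^ 4 * (N : ℝ) ^ (κ / 32))) := by gcongr
      _ = 12 * K ^ 4 * (P * (N : ℝ) ^ (κ / 32)) := by ring
      _ = _ := by rw [h4]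

end Vale.Agent.P026.H147
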