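import Vale.Agent.P026.TP.MuChi
import Vale.Agent.P026.H147.MinorMu
import Vale.Agent.P026.H147.Baire

/-!
# Major arcs for the Möbius function under the uniform quasi-Riemann hypothesis
-/

set_option linter.all false

open Finset Complex DirichletCharacter Filter ArithmeticFunction
open scoped ArithmeticFunction.Moebius

namespace Vale.Agent.P026.H147

/-- Decomposition of a finite sum according to the greatest common divisor with `q`. -/
lemma sum_gcd {q : ℕ} (hq : q ≠ 0) (g : ℕ → ℂ) (N : ℕ) :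
    ∑ n ∈ Icc 1 N, (μ n : ℂ) * g n = ∑ d ∈ q.divisors, (μ d : ℂ) *
      ∑ m ∈ Icc 1 (N / d), (μ m : ℂ) * (if m.Coprime q then g (d * m) else 0) := by
  classical
  rw [← Finset.sum_fiberwise_of_maps_to (s := Icc 1 N) (t := q.divisors)
    (g := fun n => Nat.gcd n q) (fun n _ => Nat.mem_divisors.2 ⟨Nat.gcd_dvd_right n q, hq⟩)]
  refine Finset.sum_congr rfl fun d hd => ?_
  have hdq : d ∣ q := Nat.dvd_of_mem_divisors hd
  have hd0 : 0 < d := Nat.pos_of_mem_divisors hd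
  rw [Finset.mul_sum]
  have h1 : ∀ m ∈ Icc 1 (N / d), (μ d : ℂ) * ((μ m : ℂ) * (if m.Coprime q then g (d * m) else 0)) =
      if m.Coprime q then (μ (d * m) : ℂ) * g (d * m) else 0 := by
    intro m _
    split_ifs with hm
    · have h3 : μ (d * m) = μ d * μ m :=
        isMultiplicative_moebius.map_mul_of_coprime (Nat.Coprime.coprime_dvd_left hdq hm.symm)
      rw [h3]
      push_cast
      ring
    · simp
  rw [Finset.sum_congr rfl h1, ← Finset.sum_filter]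
  have hinj : Set.InjOn (fun m => d * m) (((Icc 1 (N / d)).filter fun m => m.Coprime q : Finset ℕ) : Set ℕ) := by
    intro x _ y _ h
    exact Nat.eq_of_mul_eq_mul_left hd0 h
  rw [← Finset.sum_image (s := (Icc 1 (N / d)).filter fun m => m.Coprime q) (g := fun m => d * m)
    (f := fun n => (μ n : ℂ) * g n) hinj]
  symm
  apply Finset.sum_subset
  · intro n hn
    rw [Finset.mem_image] at hn
    obtain ⟨m, hm, rfl⟩ := hn
    rw [Finset.mem_filter, Finset.mem_Icc] at hm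
    obtain ⟨⟨hm1, hm2⟩, hm3⟩ := hm
    rw [Finset.mem_filter, Finset.mem_Icc]
    refine ⟨⟨Nat.mul_pos hd0 hm1, ?_⟩, ?_⟩
    · calc d * m ≤ d * (N / d) := Nat.mul_le_mul_left _ hm2
        _ ≤ N := Nat.mul_div_le N d
    · rw [Nat.Coprime.gcd_mul_right_cancel d hm3]
      exact Nat.gcd_eq_left hdq
  · intro n hn hn2
    rw [Finset.mem_filter, Finset.mem_Icc] at hn
    obtain ⟨⟨hn1, hn3⟩, hn4⟩ := hn
    by_cases hμ : μ n = 0
    · simp [hμ]
    · exfalso
      apply hn2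
      have hsq : Squarefree n := moebius_ne_zero_iff_squarefree.1 hμ
      have hdvd : Nat.gcd n q ∣ n := Nat.gcd_dvd_left n q
      have hcop : (n / Nat.gcd n q).Coprime q := by
        have h1 : n = Nat.gcd n q * (n / Nat.gcd n q) := (Nat.mul_div_cancel' hdvd).symm
        have h2 : (n / Nat.gcd n q).Coprime (Nat.gcd n q) := by
          rw [h1] at hsq
          have := (Nat.squarefree_mul_iff).1 hsq
          exact this.1.symm
        have h3 : (n / Nat.gcd n q).Coprime (q / Nat.gcd n q) :=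
          Nat.coprime_div_gcd_div_gcd (Nat.gcd_pos_of_pos_left _ (by omega))
        have h4 : q = Nat.gcd n q * (q / Nat.gcd n q) :=
          (Nat.mul_div_cancel' (Nat.gcd_dvd_right n q)).symm
        rw [h4]
        have h5 := Nat.Coprime.mul_right h2 h3
        rw [← h4] at h5 ⊢
        exact h5
      rw [hn4] at hcop hdvd
      rw [Finset.mem_image]
      refine ⟨n / d, ?_, Nat.mul_div_cancel' hdvd⟩
      rw [Finset.mem_filter, Finset.mem_Icc]
      refine ⟨⟨?_, Nat.div_le_div_right hn3⟩, hcop⟩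
      exact Nat.div_pos (Nat.le_of_dvd (by omega) hdvd) hd0

lemma cc_le_one {q : ℕ} [NeZero q] {h : ZMod q → ℂ} (hh : ∀ a, ‖h a‖ ≤ 1)
    (χ : DirichletCharacter ℂ q) : ‖cc h χ‖ ≤ 1 := by
  classical
  unfold cc
  have h1 : ‖∑ a : (ZMod q)ˣ, χ ((a : ZMod q)⁻¹) * h a‖ ≤ q.totient := by
    refine (norm_sum_le _ _).trans ?_
    have h2 : ∀ a ∈ (Finset.univ : Finset (ZMod q)ˣ), ‖χ ((a : ZMod q)⁻¹) * h a‖ ≤ 1 := by
      intro a _
      rw [norm_mul]
      exact mul_le_one₀ (norm_le_one χ _) (norm_nonneg _) (hh _)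
    refine (Finset.sum_le_sum h2).trans ?_
    rw [Finset.sum_const, nsmul_eq_mul, mul_one, Finset.card_univ, ZMod.card_units_eq_totient]
  have h2 : (0 : ℝ) < q.totient := by
    exact_mod_cast Nat.totient_pos.2 (Nat.pos_of_ne_zero (NeZero.ne q))
  rw [norm_mul, norm_inv, Complex.norm_natCast, inv_mul_le_iff₀ h2, mul_one]
  exact h1

lemma zmod_bound {q : ℕ} [NeZero q] {h : ZMod q → ℂ} (hh : ∀ a, ‖h a‖ ≤ 1) {B τ : ℝ} (hτ : 0 ≤ τ)
    (hB0 : 0 ≤ B) (hB : ∀ χ : DirichletCharacter ℂ q, ∀ M : ℕ, 1 ≤ M →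
      ‖∑ n ∈ Icc 1 M, (μ n : ℂ) * χ (n : ZMod q)‖ ≤ B * (M : ℝ) ^ τ) (N : ℕ) :
    ‖∑ n ∈ Icc 1 N, (μ n : ℂ) * h (n : ZMod q)‖ ≤ (q : ℝ) * (q * (B * (N : ℝ) ^ τ)) := by
  classical
  rw [sum_gcd (NeZero.ne q) (fun n => h (n : ZMod q)) N]
  have hN0 : 0 ≤ B * (N : ℝ) ^ τ := by positivity
  have h1 : ∀ d ∈ q.divisors, ‖(μ d : ℂ) * ∑ m ∈ Icc 1 (N / d),
      (μ m : ℂ) * (if m.Coprime q then h ((d * m : ℕ) : ZMod q) else 0)‖ ≤ q * (B * (N : ℝ) ^ τ) := by
    intro d hd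
    have hd0 : 0 < d := Nat.pos_of_mem_divisors hd
    rw [norm_mul]
    refine (mul_le_of_le_one_left (norm_nonneg _) (norm_moebius_le d)).trans ?_
    have h2 : ∀ m ∈ Icc 1 (N / d), (μ m : ℂ) *
        (if m.Coprime q then h ((d * m : ℕ) : ZMod q) else 0) =
        ∑ χ : DirichletCharacter ℂ q, cc (fun x => h ((d : ZMod q) * x)) χ *
          ((μ m : ℂ) * χ (m : ZMod q)) := by
      intro m _
      have h3 := char_expand (fun x => h ((d : ZMod q) * x)) m
      push_cast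
      rw [h3, Finset.mul_sum]
      refine Finset.sum_congr rfl fun χ _ => ?_
      ring
    rw [Finset.sum_congr rfl h2, Finset.sum_comm]
    refine (norm_sum_le _ _).trans ?_
    have h4 : ∀ χ ∈ (Finset.univ : Finset (DirichletCharacter ℂ q)),
        ‖∑ m ∈ Icc 1 (N / d), cc (fun x => h ((d : ZMod q) * x)) χ *
          ((μ m : ℂ) * χ (m : ZMod q))‖ ≤ B * (N : ℝ) ^ τ := by
      intro χ _
      rw [← Finset.mul_sum, norm_mul]
      refine (mul_le_of_le_one_left (norm_nonneg _) (cc_le_one (fun a => hh _) χ)).trans ?_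
      rcases Nat.eq_zero_or_pos (N / d) with h0 | h0
      · rw [h0]
        simpa using hN0
      · refine (hB χ _ h0).trans ?_
        have : ((N / d : ℕ) : ℝ) ≤ N := by exact_mod_cast Nat.div_le_self N d
        gcongr
    refine (Finset.sum_le_sum h4).trans ?_
    rw [Finset.sum_const, nsmul_eq_mul]
    apply mul_le_mul_of_nonneg_right _ hN0
    rw [Finset.card_univ]
    have h5 : Fintype.card (DirichletCharacter ℂ q) = q.totient := by
      rw [← Nat.card_eq_fintype_card]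
      exact card_eq_totient_of_hasEnoughRootsOfUnity ℂ q
    rw [h5]
    exact_mod_cast Nat.totient_le q
  refine (norm_sum_le _ _).trans ((Finset.sum_le_sum h1).trans ?_)
  rw [Finset.sum_const, nsmul_eq_mul]
  apply mul_le_mul_of_nonneg_right _ (by positivity)
  exact_mod_cast Nat.card_divisors_le_self q

lemma abel (c g : ℕ → ℂ) (N : ℕ) : ∑ n ∈ Icc 1 N, c n * g n =
    (∑ n ∈ Icc 1 N, c n) * g (N + 1) - ∑ n ∈ Icc 1 N, (∑ m ∈ Icc 1 n, c m) * (g (n + 1) - g n) := by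
  induction N with
  | zero => simp
  | succ N ih =>
    rw [Finset.sum_Icc_succ_top (by omega), Finset.sum_Icc_succ_top (by omega),
      Finset.sum_Icc_succ_top (by omega), ih, Finset.sum_Icc_succ_top (by omega)]
    ring

lemma ex_add (α β : ℝ) (n : ℕ) : ex (α + β) n = ex α n * ex β n := by
  unfold ex
  rw [← Complex.exp_add]
  congr 1
  push_cast
  ring

lemma ex_succ_sub (β : ℝ) (n : ℕ) : ‖ex β (n + 1) - ex β n‖ ≤ 2 * Real.pi * |β| := by
  have h1 : ex β (n + 1) = ex β n * Complex.exp (Complex.I * ((2 * Real.pi * β : ℝ) : ℂ)) := by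
    unfold ex
    rw [← Complex.exp_add]
    congr 1
    push_cast
    ring
  have h2 : ex β (n + 1) - ex β n = ex β n * (Complex.exp (Complex.I * ((2 * Real.pi * β : ℝ) : ℂ)) - 1) := by
    rw [h1]; ring
  rw [h2, norm_mul, norm_ex, one_mul]
  refine (Real.norm_exp_I_mul_ofReal_sub_one_le).trans ?_
  rw [Real.norm_eq_abs, abs_mul, abs_of_pos (by positivity : 0 < 2 * Real.pi)]

lemma perturb {c : ℕ → ℂ} {K τ : ℝ} (hK : 0 ≤ K) (hτ : 0 ≤ τ) {N : ℕ}
    (hc : ∀ M : ℕ, ‖∑ n ∈ Icc 1 M, c n‖ ≤ K * (M : ℝ) ^ τ) (β : ℝ) :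
    ‖∑ n ∈ Icc 1 N, c n * ex β n‖ ≤ K * (N : ℝ) ^ τ * (1 + 2 * Real.pi * |β| * N) := by
  rw [abel]
  refine (norm_sub_le _ _).trans ?_
  have h1 : ‖(∑ n ∈ Icc 1 N, c n) * ex β (N + 1)‖ ≤ K * (N : ℝ) ^ τ := by
    rw [norm_mul, norm_ex, mul_one]
    exact hc N
  have h2 : ‖∑ n ∈ Icc 1 N, (∑ m ∈ Icc 1 n, c m) * (ex β (n + 1) - ex β n)‖ ≤
      K * (N : ℝ) ^ τ * (2 * Real.pi * |β| * N) := by
    refine (norm_sum_le _ _).trans ?_
    have h3 : ∀ n ∈ Icc 1 N, ‖(∑ m ∈ Icc 1 n, c m) * (ex β (n + 1) - ex β n)‖ ≤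
        K * (N : ℝ) ^ τ * (2 * Real.pi * |β|) := by
      intro n hn
      rw [Finset.mem_Icc] at hn
      rw [norm_mul]
      have h4 : (n : ℝ) ≤ N := by exact_mod_cast hn.2
      refine mul_le_mul ((hc n).trans ?_) (ex_succ_sub β n) (norm_nonneg _) (by positivity)
      gcongr
    refine (Finset.sum_le_sum h3).trans (le_of_eq ?_)
    simp
    ring
  calc _ ≤ K * (N : ℝ) ^ τ + K * (N : ℝ) ^ τ * (2 * Real.pi * |β| * N) := add_le_add h1 h2
    _ = _ := by ring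

lemma ex_frac {q : ℕ} [NeZero q] (a : ℤ) (n : ℕ) :
    ex ((a : ℝ) / q) n = ZMod.stdAddChar ((a : ZMod q) * (n : ZMod q)) := by
  have h2 : ((a : ZMod q) * (n : ZMod q)) = ((a * n : ℤ) : ZMod q) := by push_cast; ring
  rw [h2, ZMod.stdAddChar_coe, ex]
  congr 1
  push_cast
  ring

/-- **The uniform quasi-Riemann hypothesis gives a power saving that is uniform in the
frequency.** -/
theorem uniform_bound (h : UniformQuasiRH) : ∃ θ C : ℝ, θ < 1 ∧ ∀ (α : ℝ) (N : ℕ), 1 ≤ N →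
    ‖mobSum α N‖ ≤ C * (N : ℝ) ^ θ := by
  obtain ⟨σ, hσ, hz⟩ := h
  set d : ℝ := min (1 - σ) (1 / 2) with hd
  have hd0 : 0 < d := lt_min (by linarith) (by norm_num)
  have hd2 : d ≤ 1 / 2 := min_le_right _ _
  have hdσ : σ ≤ 1 - d := by
    have : d ≤ 1 - σ := min_le_left _ _
    linarith
  set η : ℝ := d / 160 with hη
  have hη0 : 0 < η := by positivity
  have hη1 : η ≤ 1 / 320 := by rw [hη]; linarith
  set κ : ℝ := η / 8 with hκ
  have hκ0 : 0 < κ := by positivity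
  have hκ1 : κ < 1 / 2 := by rw [hκ]; linarith
  obtain ⟨δ, C, hδ, hC, hmin⟩ := minor_mu κ hκ0 hκ1
  set K : ℝ := |3 * TP.KK d| with hK
  have hK0 : 0 ≤ K := abs_nonneg _
  refine ⟨max (1 - δ) (1 - η / 2), C + 8 * K, max_lt (by linarith) (by linarith), ?_⟩
  intro α N hN
  have hN' : (1 : ℝ) ≤ N := by exact_mod_cast hN
  have hN0 : (0 : ℝ) < N := by linarith
  set Q : ℝ := (N : ℝ) ^ (1 - κ) with hQ
  have hQ1 : 1 ≤ Q := Real.one_le_rpow hN' (by linarith)
  have hfl : 0 < ⌊Q⌋₊ := Nat.floor_pos.2 hQ1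
  obtain ⟨x, hx1, hx2⟩ := Real.exists_rat_abs_sub_le_and_den_le α hfl
  set q : ℕ := x.den with hq
  set a : ℤ := x.num with ha
  have hqpos : 0 < q := x.den_pos
  haveI : NeZero q := ⟨hqpos.ne'⟩
  have hqr : (0 : ℝ) < q := by exact_mod_cast hqpos
  have hq1 : (1 : ℝ) ≤ q := by exact_mod_cast hqpos
  have hxr : (x : ℝ) = (a : ℝ) / q := by
    rw [ha, hq]
    exact_mod_cast (Rat.num_div_den x).symm
  have hcop : IsCoprime a (q : ℤ) := by
    rw [Int.isCoprime_iff_nat_coprime]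
    simpa using x.reduced
  have hqQ : (q : ℝ) ≤ Q := by
    have h1 : (q : ℝ) ≤ (⌊Q⌋₊ : ℝ) := by exact_mod_cast hx2
    exact h1.trans (Nat.floor_le (by linarith))
  have hQfl : Q ≤ (⌊Q⌋₊ : ℝ) + 1 := (Nat.lt_floor_add_one Q).le
  have hβ : |α - a / q| ≤ 1 / (Q * q) := by
    rw [← hxr]
    refine hx1.trans ?_
    gcongr
  have hβ2 : |α - a / q| ≤ 1 / (q : ℝ) ^ 2 := by
    refine hβ.trans ?_
    rw [pow_two]
    gcongr
  by_cases hqκ : (N : ℝ) ^ κ ≤ q
  · have h1 := hmin N q a α hN hqpos hcop hβ2 hqκ hqQ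
    have h2 : mobSum α N = ∑ n ∈ Icc 1 N, ((μ n : ℤ) : ℂ) * TP.e ((n : ℝ) * α) := by
      unfold mobSum
      refine Finset.sum_congr rfl fun n _ => ?_
      congr 1
      unfold TP.e
      congr 1
      push_cast
      ring
    rw [h2]
    refine h1.trans ?_
    have h3 : (N : ℝ) ^ (1 - δ) ≤ (N : ℝ) ^ (max (1 - δ) (1 - η / 2)) :=
      Real.rpow_le_rpow_of_exponent_le hN' (le_max_left _ _)
    have h4 : 0 ≤ (N : ℝ) ^ (max (1 - δ) (1 - η / 2)) := by positivity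
    nlinarith
  · push Not at hqκ
    have hB : ∀ χ : DirichletCharacter ℂ q, ∀ M : ℕ, 1 ≤ M →
        ‖∑ n ∈ Icc 1 M, (μ n : ℂ) * χ (n : ZMod q)‖ ≤ (K * q) * (M : ℝ) ^ (1 - η) := by
      intro χ M hM
      have hM' : (1 : ℝ) ≤ M := by exact_mod_cast hM
      have h1 := TP.mu_chi_power hd0 hd2 χ
        (fun s hs1 hs2 => hz q χ s (lt_of_le_of_lt hdσ hs1) hs2) (M : ℝ) hM'
      rw [Nat.floor_natCast] at h1
      refine h1.trans ?_
      have h2 : (q : ℝ) ^ (1 / 2 : ℝ) ≤ q := by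
        calc (q : ℝ) ^ (1 / 2 : ℝ) ≤ (q : ℝ) ^ (1 : ℝ) :=
              Real.rpow_le_rpow_of_exponent_le hq1 (by norm_num)
          _ = q := Real.rpow_one _
      have h3 : 3 * TP.KK d ≤ K := le_abs_self _
      have h4 : 0 ≤ (M : ℝ) ^ (1 - η) := by positivity
      have h5 : (0 : ℝ) ≤ (q : ℝ) ^ (1 / 2 : ℝ) := by positivity
      calc 3 * TP.KK d * (q : ℝ) ^ (1 / 2 : ℝ) * (M : ℝ) ^ (1 - d / 160) ≤
            K * (q : ℝ) ^ (1 / 2 : ℝ) * (M : ℝ) ^ (1 - d / 160) := by gcongr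
        _ ≤ (K * q) * (M : ℝ) ^ (1 - η) := by gcongr
    have hh : ∀ y : ZMod q, ‖(fun x : ZMod q => (ZMod.stdAddChar ((a : ZMod q) * x) : ℂ)) y‖ ≤ 1 := by
      intro y
      simp only
      rw [AddChar.norm_apply]
    have hc : ∀ M : ℕ, ‖∑ n ∈ Icc 1 M, (μ n : ℂ) * ex ((a : ℝ) / q) n‖ ≤
        ((q : ℝ) * (q * (K * q))) * (M : ℝ) ^ (1 - η) := by
      intro M
      have h1 := zmod_bound hh (by linarith : 0 ≤ 1 - η) (by positivity : 0 ≤ K * q) hB M
      simp_rw [ex_frac]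
      refine h1.trans (le_of_eq ?_)
      ring
    have h2 : mobSum α N = ∑ n ∈ Icc 1 N, ((μ n : ℂ) * ex ((a : ℝ) / q) n) * ex (α - a / q) n := by
      rw [mobSum_eq]
      refine Finset.sum_congr rfl fun n _ => ?_
      rw [mul_assoc, ← ex_add]
      congr 2
      ring
    rw [h2]
    refine (perturb (by positivity) (by linarith : 0 ≤ 1 - η) hc (α - a / q)).trans ?_
    have h3 : 2 * Real.pi * |α - a / q| * N ≤ 7 * (N : ℝ) ^ κ := by
      have h4 : |α - a / q| ≤ 1 / Q := by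
        refine hβ.trans ?_
        apply one_div_le_one_div_of_le (by linarith)
        nlinarith
      have h5 : 1 / Q * N = (N : ℝ) ^ κ := by
        rw [hQ, one_div, ← Real.rpow_neg hN0.le]
        nth_rewrite 2 [← Real.rpow_one (N : ℝ)]
        rw [← Real.rpow_add hN0]
        congr 1
        ring
      have h6 : 2 * Real.pi ≤ 7 := by
        have := Real.pi_lt_d2
        linarith
      calc 2 * Real.pi * |α - a / q| * N ≤ 7 * (1 / Q) * N := by gcongr
        _ = 7 * (N : ℝ) ^ κ := by rw [← h5]; ring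
    have h7 : 1 ≤ (N : ℝ) ^ κ := Real.one_le_rpow hN' hκ0.le
    have h8 : 1 + 2 * Real.pi * |α - a / q| * N ≤ 8 * (N : ℝ) ^ κ := by linarith
    have h9 : (q : ℝ) * (q * (K * q)) ≤ (N : ℝ) ^ κ * ((N : ℝ) ^ κ * (K * (N : ℝ) ^ κ)) := by
      gcongr
    calc (q : ℝ) * (q * (K * q)) * (N : ℝ) ^ (1 - η) * (1 + 2 * Real.pi * |α - a / q| * N) ≤
          ((N : ℝ) ^ κ * ((N : ℝ) ^ κ * (K * (N : ℝ) ^ κ))) * (N : ℝ) ^ (1 - η) * (8 * (N : ℝ) ^ κ) := by
            gcongr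
      _ = 8 * K * ((N : ℝ) ^ κ * (N : ℝ) ^ κ * (N : ℝ) ^ κ * (N : ℝ) ^ κ * (N : ℝ) ^ (1 - η)) := by
            ring
      _ = 8 * K * (N : ℝ) ^ (1 - η / 2) := by
            rw [← Real.rpow_add hN0, ← Real.rpow_add hN0, ← Real.rpow_add hN0, ← Real.rpow_add hN0]
            congr 2
            rw [hκ]
            ring
      _ ≤ 8 * K * (N : ℝ) ^ (max (1 - δ) (1 - η / 2)) := by
            apply mul_le_mul_of_nonneg_left _ (by positivity)
            exact Real.rpow_le_rpow_of_exponent_le hN' (le_max_right _ _)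
      _ ≤ _ := by
            have h4 : 0 ≤ (N : ℝ) ^ (max (1 - δ) (1 - η / 2)) := by positivity
            nlinarith

end Vale.Agent.P026.H147
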